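import Vale.Agent.P125.H295.Main

/-!
# P125 : the converse: superreflexive spaces satisfy an improved one-time inequality
-/

set_option linter.all false

namespace P125

open Finset Filter Topology

section Pointwise

variable {X : Type*} [AddCommGroup X] [Module ℝ X]

/-- scalar part: `min (1 - d) ((1 + a) / 2) ^ p ≤ r * (1 + a ^ p) / 2` on `[0, 1]` -/
theorem exists_ratio {p : ℝ} (hp : 1 < p) {d : ℝ} (hd : 0 < d) (hd1 : d ≤ 1) :
    ∃ r : ℝ, 0 ≤ r ∧ r < 1 ∧ ∀ a ∈ Set.Icc (0 : ℝ) 1,
      (min (1 - d) ((1 + a) / 2)) ^ p ≤ r * ((1 + a ^ p) / 2) := by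
  have hp0 : 0 < p := by linarith
  have hcont : ContinuousOn (fun a : ℝ => (min (1 - d) ((1 + a) / 2)) ^ p / ((1 + a ^ p) / 2))
      (Set.Icc 0 1) := by
    refine ContinuousOn.div ?_ ?_ ?_
    · refine ContinuousOn.rpow_const ?_ fun a _ => Or.inr hp0.le
      exact (continuous_const.min (by fun_prop)).continuousOn
    · refine ContinuousOn.div_const (ContinuousOn.add continuousOn_const ?_) _
      exact ContinuousOn.rpow_const continuousOn_id fun a _ => Or.inr hp0.le
    · intro a ha
      have : 0 ≤ a ^ p := Real.rpow_nonneg ha.1 p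
      positivity
  obtain ⟨a0, ha0, hmax⟩ := isCompact_Icc.exists_isMaxOn ⟨0, by norm_num, by norm_num⟩ hcont
  set r := (min (1 - d) ((1 + a0) / 2)) ^ p / ((1 + a0 ^ p) / 2) with hr
  have hmin0 : ∀ a ∈ Set.Icc (0 : ℝ) 1, 0 ≤ min (1 - d) ((1 + a) / 2) := fun a ha =>
    le_min (by linarith) (by linarith [ha.1])
  have hpos : ∀ a ∈ Set.Icc (0 : ℝ) 1, 0 < (1 + a ^ p) / 2 := fun a ha => by
    have : 0 ≤ a ^ p := Real.rpow_nonneg ha.1 p
    positivity
  refine ⟨r, div_nonneg (Real.rpow_nonneg (hmin0 a0 ha0) p) (hpos a0 ha0).le, ?_, ?_⟩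
  · rw [hr, div_lt_one (hpos a0 ha0)]
    rcases eq_or_lt_of_le ha0.2 with h1 | h1
    · rw [h1, Real.one_rpow]
      have h2 : (min (1 - d) ((1 + 1) / 2)) ^ p < 1 ^ p := by
        refine Real.rpow_lt_rpow ?_ (lt_of_le_of_lt (min_le_left _ _) (by linarith)) hp0
        have := hmin0 1 ⟨by norm_num, le_rfl⟩
        simpa using this
      rw [Real.one_rpow] at h2
      linarith
    · have h2 : (min (1 - d) ((1 + a0) / 2)) ^ p ≤ ((1 + a0) / 2) ^ p :=
        Real.rpow_le_rpow (hmin0 a0 ha0) (min_le_right _ _) hp0.le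
      have h3 := (strictConvexOn_rpow hp).2 (Set.mem_Ici.2 (zero_le_one : (0 : ℝ) ≤ 1))
        (Set.mem_Ici.2 ha0.1) h1.ne' (by norm_num : (0 : ℝ) < 1 / 2)
        (by norm_num : (0 : ℝ) < 1 / 2) (by norm_num : (1 / 2 : ℝ) + 1 / 2 = 1)
      simp only [smul_eq_mul, Real.one_rpow] at h3
      have e : (1 / 2 * 1 + 1 / 2 * a0 : ℝ) = (1 + a0) / 2 := by ring
      rw [e] at h3
      linarith
  · intro a ha
    have h1 : (min (1 - d) ((1 + a) / 2)) ^ p / ((1 + a ^ p) / 2) ≤ r := hmax ha
    rwa [div_le_iff₀ (hpos a ha)] at h1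

/-- half of the sum in convex position -/
theorem half_le (N : Seminorm ℝ X) {p : ℝ} (hp : 1 ≤ p) (x y : X) :
    N ((1 / 2 : ℝ) • (x + y)) ^ p ≤ (N x ^ p + N y ^ p) / 2 := by
  have h1 : N ((1 / 2 : ℝ) • (x + y)) ≤ 1 / 2 * N x + 1 / 2 * N y := by
    rw [map_smul_eq_mul, Real.norm_of_nonneg (by norm_num)]
    have := map_add_le_add N x y
    linarith
  have h2 := (convexOn_rpow hp).2 (Set.mem_Ici.2 (apply_nonneg N x))
    (Set.mem_Ici.2 (apply_nonneg N y)) (by norm_num : (0 : ℝ) ≤ 1 / 2)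
    (by norm_num : (0 : ℝ) ≤ 1 / 2) (by norm_num : (1 / 2 : ℝ) + 1 / 2 = 1)
  simp only [smul_eq_mul] at h2
  calc _ ≤ (1 / 2 * N x + 1 / 2 * N y) ^ p :=
        Real.rpow_le_rpow (apply_nonneg _ _) h1 (by linarith)
    _ ≤ _ := h2
    _ = _ := by ring

theorem sub_le (N : Seminorm ℝ X) {p : ℝ} (hp : 1 ≤ p) (x y : X) :
    N (x - y) ^ p ≤ 2 ^ p * ((N x ^ p + N y ^ p) / 2) := by
  have h := half_le N hp x (-y)
  rw [map_neg_eq_map] at h
  have e : N (x - y) = 2 * N ((1 / 2 : ℝ) • (x + -y)) := by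
    rw [map_smul_eq_mul, Real.norm_of_nonneg (by norm_num), sub_eq_add_neg]
    ring
  rw [e, Real.mul_rpow (by norm_num) (apply_nonneg _ _)]
  exact mul_le_mul_of_nonneg_left h (by positivity)

/-- The uniform convexity inequality in `p`-th powers, normalised and ordered case. -/
theorem uc_one (N : Seminorm ℝ X) (hN : UniformlyConvexNorm N) {p : ℝ} (hp : 1 < p) :
    ∃ δ : ℝ, 0 < δ ∧ δ ≤ 1 ∧ ∀ x y : X, N x = 1 → N y ≤ 1 →
      N ((1 / 2 : ℝ) • (x + y)) ^ p ≤
        (1 + δ / 4) * ((N x ^ p + N y ^ p) / 2) - δ * N (x - y) ^ p := by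
  have hp0 : 0 < p := by linarith
  set ε : ℝ := (1 / 8 : ℝ) ^ (1 / p) with hε
  have hε0 : 0 < ε := Real.rpow_pos_of_pos (by norm_num) _
  have hε1 : ε ≤ 1 := Real.rpow_le_one (by norm_num) (by norm_num) (by positivity)
  have hεp : ε ^ p = 1 / 8 := by
    rw [hε, ← Real.rpow_mul (by norm_num), one_div_mul_cancel hp0.ne', Real.rpow_one]
  obtain ⟨d0, hd0, hconv⟩ := hN ε hε0 (by linarith)
  set d := min d0 1 with hd
  have hdpos : 0 < d := lt_min hd0 one_pos
  obtain ⟨r, hr0, hr1, hr⟩ := exists_ratio hp hdpos (min_le_right _ _)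
  have h2p : (1 : ℝ) ≤ 2 ^ p := Real.one_le_rpow (by norm_num) hp0.le
  set δ := (1 - r) / 2 ^ p with hδ
  have hδ0 : 0 < δ := div_pos (by linarith) (by positivity)
  have hδ1 : δ ≤ 1 := by
    rw [hδ, div_le_one (by positivity)]
    linarith
  refine ⟨δ, hδ0, hδ1, fun x y hx hy => ?_⟩
  have hy0 : 0 ≤ N y := apply_nonneg N y
  set T := (N x ^ p + N y ^ p) / 2 with hT
  have hT2 : 1 / 2 ≤ T := by
    rw [hT, hx, Real.one_rpow]
    have : 0 ≤ N y ^ p := Real.rpow_nonneg hy0 p
    linarith
  rcases le_or_gt ε (N (x - y)) with h | h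
  · have h1 := hconv x y hx.le hy h
    have h2 : N ((1 / 2 : ℝ) • (x + y)) ≤ min (1 - d) ((1 + N y) / 2) := by
      refine le_min (h1.trans ?_) ?_
      · have := min_le_left d0 1
        linarith
      · rw [map_smul_eq_mul, Real.norm_of_nonneg (by norm_num)]
        have := map_add_le_add N x y
        rw [hx] at this
        linarith
    have h3 : N ((1 / 2 : ℝ) • (x + y)) ^ p ≤ r * T := by
      refine (Real.rpow_le_rpow (apply_nonneg _ _) h2 hp0.le).trans ?_
      have := hr (N y) ⟨hy0, hy⟩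
      rw [hT, hx, Real.one_rpow]
      exact this
    have h4 := sub_le N hp.le x y
    have h5 : δ * N (x - y) ^ p ≤ (1 - r) * T := by
      calc δ * N (x - y) ^ p ≤ δ * (2 ^ p * T) := mul_le_mul_of_nonneg_left h4 hδ0.le
        _ = (1 - r) * T := by rw [hδ]; field_simp
    nlinarith
  · have h1 : N (x - y) ^ p ≤ 1 / 8 := by
      rw [← hεp]
      exact Real.rpow_le_rpow (apply_nonneg _ _) h.le hp0.le
    have h2 := half_le N hp.le x y
    nlinarith

/-- The uniform convexity inequality in `p`-th powers. -/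
theorem uc_ineq (N : Seminorm ℝ X) (hN : UniformlyConvexNorm N) {p : ℝ} (hp : 1 < p) :
    ∃ δ : ℝ, 0 < δ ∧ δ ≤ 1 ∧ ∀ x y : X,
      N ((1 / 2 : ℝ) • (x + y)) ^ p ≤
        (1 + δ / 4) * ((N x ^ p + N y ^ p) / 2) - δ * N (x - y) ^ p := by
  have hp0 : 0 < p := by linarith
  obtain ⟨δ, hδ0, hδ1, h⟩ := uc_one N hN hp
  -- ordered case
  have key : ∀ x y : X, N y ≤ N x → N ((1 / 2 : ℝ) • (x + y)) ^ p ≤
        (1 + δ / 4) * ((N x ^ p + N y ^ p) / 2) - δ * N (x - y) ^ p := by
    intro x y hxy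
    rcases eq_or_lt_of_le (apply_nonneg N x) with h0 | h0
    · have hy : N y = 0 := le_antisymm (hxy.trans h0.symm.le) (apply_nonneg N y)
      have h1 : N (x - y) = 0 := by
        refine le_antisymm ?_ (apply_nonneg _ _)
        have := map_sub_le_add N x y
        rw [← h0, hy] at this
        linarith
      have h2 := half_le N hp.le x y
      rw [← h0, hy, h1] at *
      rw [Real.zero_rpow hp0.ne'] at *
      linarith
    · set m := N x with hm
      have e1 : N ((m⁻¹ : ℝ) • x) = 1 := by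
        rw [map_smul_eq_mul, Real.norm_of_nonneg (inv_nonneg.2 h0.le), ← hm,
          inv_mul_cancel₀ h0.ne']
      have e2 : N ((m⁻¹ : ℝ) • y) = m⁻¹ * N y := by
        rw [map_smul_eq_mul, Real.norm_of_nonneg (inv_nonneg.2 h0.le)]
      have e3 : N ((m⁻¹ : ℝ) • y) ≤ 1 := by
        rw [e2, inv_mul_le_iff₀ h0, mul_one]
        exact hxy
      have h1 := h _ _ e1 e3
      have e4 : N ((1 / 2 : ℝ) • ((m⁻¹ : ℝ) • x + (m⁻¹ : ℝ) • y)) =
          m⁻¹ * N ((1 / 2 : ℝ) • (x + y)) := by
        rw [← smul_add, smul_comm, map_smul_eq_mul, Real.norm_of_nonneg (inv_nonneg.2 h0.le)]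
      have e5 : N ((m⁻¹ : ℝ) • x - (m⁻¹ : ℝ) • y) = m⁻¹ * N (x - y) := by
        rw [← smul_sub, map_smul_eq_mul, Real.norm_of_nonneg (inv_nonneg.2 h0.le)]
      have e6 : (1 : ℝ) = m⁻¹ * m := (inv_mul_cancel₀ h0.ne').symm
      rw [e1, e2, e4, e5] at h1
      have e7 : (1 : ℝ) ^ p = (m⁻¹) ^ p * m ^ p := by
        rw [← Real.mul_rpow (inv_nonneg.2 h0.le) h0.le, ← e6]
      rw [e7, Real.mul_rpow (inv_nonneg.2 h0.le) (apply_nonneg _ _),
        Real.mul_rpow (inv_nonneg.2 h0.le) (apply_nonneg _ _),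
        Real.mul_rpow (inv_nonneg.2 h0.le) (apply_nonneg _ _)] at h1
      have h2 : (0 : ℝ) < (m⁻¹) ^ p := Real.rpow_pos_of_pos (inv_pos.2 h0) p
      refine le_of_mul_le_mul_left ?_ h2
      calc _ ≤ _ := h1
        _ = _ := by ring
  refine ⟨δ, hδ0, hδ1, fun x y => ?_⟩
  rcases le_total (N y) (N x) with hxy | hxy
  · exact key x y hxy
  · have := key y x hxy
    rw [add_comm y x, add_comm (N y ^ p), map_sub_rev] at this
    exact this

end Pointwise

section Sums

variable {X : Type*} [AddCommGroup X] [Module ℝ X]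

/-- Growth of two-term sums `U + V` in `L_p` when `‖U‖ ≤ ‖U - V‖`. -/
theorem two_sum (N : Seminorm ℝ X) {p : ℝ} (hp : 1 < p) {δ : ℝ} (hδ0 : 0 < δ) (hδ1 : δ ≤ 1)
    (h : ∀ x y : X, N ((1 / 2 : ℝ) • (x + y)) ^ p ≤
        (1 + δ / 4) * ((N x ^ p + N y ^ p) / 2) - δ * N (x - y) ^ p)
    {Γ : Type*} [Fintype Γ] (w : Γ → ℝ) (hw : ∀ γ, 0 ≤ w γ) (U V : Γ → X) {A : ℝ}
    (hA : 0 ≤ A)
    (hU : ∑ γ, w γ * N (U γ) ^ p ≤ A) (hV : ∑ γ, w γ * N (V γ) ^ p ≤ A)
    (hUV : ∑ γ, w γ * N (U γ) ^ p ≤ ∑ γ, w γ * N (U γ - V γ) ^ p) :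
    ∑ γ, w γ * N (U γ + V γ) ^ p ≤ 2 ^ p * (1 - δ / 4) * A := by
  have e : ∀ γ, N (U γ + V γ) ^ p = 2 ^ p * N ((1 / 2 : ℝ) • (U γ + V γ)) ^ p := by
    intro γ
    rw [← Real.mul_rpow (by norm_num) (apply_nonneg _ _), map_smul_eq_mul,
      Real.norm_of_nonneg (by norm_num)]
    congr 1
    ring
  have e2 : ∑ γ, w γ * N (U γ + V γ) ^ p =
      2 ^ p * ∑ γ, w γ * N ((1 / 2 : ℝ) • (U γ + V γ)) ^ p := by
    rw [Finset.mul_sum]
    exact Finset.sum_congr rfl fun γ _ => by rw [e]; ring
  rw [e2, mul_assoc]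
  refine mul_le_mul_of_nonneg_left ?_ (by positivity)
  set u := ∑ γ, w γ * N (U γ) ^ p with hu
  have h1 : ∑ γ, w γ * N ((1 / 2 : ℝ) • (U γ + V γ)) ^ p ≤
      (1 + δ / 4) * ((∑ γ, w γ * N (U γ) ^ p + ∑ γ, w γ * N (V γ) ^ p) / 2) -
        δ * ∑ γ, w γ * N (U γ - V γ) ^ p := by
    have : ∀ γ, w γ * N ((1 / 2 : ℝ) • (U γ + V γ)) ^ p ≤
        (1 + δ / 4) * ((w γ * N (U γ) ^ p + w γ * N (V γ) ^ p) / 2) -
          δ * (w γ * N (U γ - V γ) ^ p) := by
      intro γ
      calc _ ≤ w γ * ((1 + δ / 4) * ((N (U γ) ^ p + N (V γ) ^ p) / 2) -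
            δ * N (U γ - V γ) ^ p) := mul_le_mul_of_nonneg_left (h _ _) (hw γ)
        _ = _ := by ring
    refine (Finset.sum_le_sum fun γ _ => this γ).trans (le_of_eq ?_)
    rw [Finset.sum_sub_distrib, ← Finset.mul_sum, ← Finset.mul_sum, ← Finset.sum_div,
      Finset.sum_add_distrib]
  have h2 : ∑ γ, w γ * N ((1 / 2 : ℝ) • (U γ + V γ)) ^ p ≤
      (∑ γ, w γ * N (U γ) ^ p + ∑ γ, w γ * N (V γ) ^ p) / 2 := by
    have : ∀ γ, w γ * N ((1 / 2 : ℝ) • (U γ + V γ)) ^ p ≤
        (w γ * N (U γ) ^ p + w γ * N (V γ) ^ p) / 2 := by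
      intro γ
      calc _ ≤ w γ * ((N (U γ) ^ p + N (V γ) ^ p) / 2) :=
            mul_le_mul_of_nonneg_left (half_le N hp.le _ _) (hw γ)
        _ = _ := by ring
    refine (Finset.sum_le_sum fun γ _ => this γ).trans (le_of_eq ?_)
    rw [← Finset.sum_div, Finset.sum_add_distrib]
  rw [← hu] at h1 h2
  rcases le_or_gt (A / 2) u with h3 | h3
  · have h4 : δ * u ≤ δ * ∑ γ, w γ * N (U γ - V γ) ^ p := mul_le_mul_of_nonneg_left hUV hδ0.le
    have h5 : (1 + δ / 4) * ((u + ∑ γ, w γ * N (V γ) ^ p) / 2) ≤ (1 + δ / 4) * A :=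
      mul_le_mul_of_nonneg_left (by linarith) (by linarith)
    nlinarith
  · nlinarith

/-- Jensen for `N ^ p` and finite probability weights. -/
theorem jensen_pow (N : Seminorm ℝ X) {p : ℝ} (hp : 1 ≤ p) {Λ : Type*} [Fintype Λ]
    (w : Λ → ℝ) (hw : ∀ l, 0 ≤ w l) (hw1 : ∑ l, w l = 1) (x : Λ → X) :
    N (∑ l, w l • x l) ^ p ≤ ∑ l, w l * N (x l) ^ p := by
  have h1 : N (∑ l, w l • x l) ≤ ∑ l, w l * N (x l) := by
    refine (Finset.le_sum_of_subadditive N (map_zero N).le (map_add_le_add N) _ _).trans ?_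
    refine Finset.sum_le_sum fun l _ => ?_
    rw [map_smul_eq_mul, Real.norm_of_nonneg (hw l)]
  refine (Real.rpow_le_rpow (apply_nonneg _ _) h1 (by linarith)).trans ?_
  exact Real.rpow_arith_mean_le_arith_mean_rpow Finset.univ w (fun l => N (x l))
    (fun l _ => hw l) hw1 (fun l _ => apply_nonneg _ _) hp

variable {S : Type} [Fintype S] [DecidableEq S]

/-- The doubling step. -/
theorem step (N : Seminorm ℝ X) {p : ℝ} (hp : 1 < p) {δ : ℝ} (hδ0 : 0 < δ) (hδ1 : δ ≤ 1)
    (h : ∀ x y : X, N ((1 / 2 : ℝ) • (x + y)) ^ p ≤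
        (1 + δ / 4) * ((N x ^ p + N y ^ p) / 2) - δ * N (x - y) ^ p)
    {Λ : Type} [Fintype Λ] (W : Λ → ℝ) (hW : ∀ l, 0 ≤ W l) (s e : Λ → S) (v : Λ → X)
    (ms : ∀ i, ∑ l, (if s l = i then W l else 0) = 1)
    (me : ∀ i, ∑ l, (if e l = i then W l else 0) = 1)
    (mv : ∀ i, ∑ l, (if s l = i then W l else 0) • v l = 0) {A : ℝ}
    (hA : ∑ l, W l * N (v l) ^ p ≤ A) :
    ∑ l, ∑ k, (if e l = s k then W l * W k else 0) * N (v l + v k) ^ p ≤
      2 ^ p * (1 - δ / 4) * A := by
  have hA0 : 0 ≤ A := le_trans (Finset.sum_nonneg fun l _ =>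
    mul_nonneg (hW l) (Real.rpow_nonneg (apply_nonneg _ _) _)) hA
  have key := two_sum N hp hδ0 hδ1 h (Γ := Λ × Λ)
    (fun q => if e q.1 = s q.2 then W q.1 * W q.2 else 0) (fun q => by
      split_ifs
      · exact mul_nonneg (hW _) (hW _)
      · exact le_rfl) (fun q => v q.1) (fun q => v q.2) hA0 ?_ ?_ ?_
  · rw [Fintype.sum_prod_type] at key
    exact key
  · rw [Fintype.sum_prod_type]
    refine le_trans (le_of_eq (Finset.sum_congr rfl fun l _ => ?_)) hA
    dsimp only
    have : ∀ k, (if e l = s k then W l * W k else 0) * N (v l) ^ p =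
        (if s k = e l then W k else 0) * (W l * N (v l) ^ p) := by
      intro k
      by_cases hk : e l = s k
      · rw [if_pos hk, if_pos hk.symm]; ring
      · rw [if_neg hk, if_neg fun h => hk h.symm]; ring
    simp only [this, ← Finset.sum_mul, ms, one_mul]
  · rw [Fintype.sum_prod_type, Finset.sum_comm]
    refine le_trans (le_of_eq (Finset.sum_congr rfl fun k _ => ?_)) hA
    dsimp only
    have : ∀ l, (if e l = s k then W l * W k else 0) * N (v k) ^ p =
        (if e l = s k then W l else 0) * (W k * N (v k) ^ p) := by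
      intro l
      by_cases hk : e l = s k
      · rw [if_pos hk, if_pos hk]; ring
      · rw [if_neg hk, if_neg hk]; ring
    simp only [this, ← Finset.sum_mul, me, one_mul]
  · rw [Fintype.sum_prod_type, Fintype.sum_prod_type]
    refine Finset.sum_le_sum fun l _ => ?_
    dsimp only
    have e1 : ∀ k, (if e l = s k then W l * W k else 0) * N (v l) ^ p =
        W l * ((if s k = e l then W k else 0) * N (v l) ^ p) := by
      intro k
      by_cases hk : e l = s k
      · rw [if_pos hk, if_pos hk.symm]; ring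
      · rw [if_neg hk, if_neg fun h => hk h.symm]; ring
    have e2 : ∀ k, (if e l = s k then W l * W k else 0) * N (v l - v k) ^ p =
        W l * ((if s k = e l then W k else 0) * N (v l - v k) ^ p) := by
      intro k
      by_cases hk : e l = s k
      · rw [if_pos hk, if_pos hk.symm]; ring
      · rw [if_neg hk, if_neg fun h => hk h.symm]; ring
    simp only [e1, e2, ← Finset.mul_sum]
    refine mul_le_mul_of_nonneg_left ?_ (hW l)
    rw [← Finset.sum_mul, ms, one_mul]
    have h3 := jensen_pow N hp.le (fun k => if s k = e l then W k else 0)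
      (fun k => by split_ifs; exacts [hW k, le_rfl]) (ms (e l)) (fun k => v l - v k)
    have h4 : ∑ k, (if s k = e l then W k else 0) • (v l - v k) = v l := by
      simp only [smul_sub, Finset.sum_sub_distrib]
      rw [mv (e l), sub_zero, ← Finset.sum_smul, ms, one_smul]
    rw [h4] at h3
    exact h3

/-- one-step average -/
noncomputable def avg (P : Matrix S S ℝ) (f : S → X) (i : S) : X := ∑ k, P i k • f k

theorem ite_smul_mul (a : Prop) [Decidable a] (x y : ℝ) (v : X) :
    (if a then x * y else 0) • v = y • ((if a then x else 0) • v) := by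
  by_cases h : a
  · rw [if_pos h, if_pos h, smul_smul, mul_comm]
  · rw [if_neg h, if_neg h, zero_smul, smul_zero]

/-- Path data at the time `2 ^ (m + 1)`: forward martingale `v`, backward martingale `b`. -/
theorem exists_paths (N : Seminorm ℝ X) {p : ℝ} (hp : 1 < p) {δ : ℝ} (hδ0 : 0 < δ) (hδ1 : δ ≤ 1)
    (h : ∀ x y : X, N ((1 / 2 : ℝ) • (x + y)) ^ p ≤
        (1 + δ / 4) * ((N x ^ p + N y ^ p) / 2) - δ * N (x - y) ^ p)
    {P : Matrix S S ℝ} (hP : IsSymmChain P) (f : S → X) (m : ℕ) :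
    ∃ (Λ : Type) (_ : Fintype Λ) (W : Λ → ℝ) (s e : Λ → S) (v b : Λ → X),
      (∀ l, 0 ≤ W l) ∧
      (∀ φ : S → S → ℝ, ∑ l, W l * φ (s l) (e l) =
        ∑ i, ∑ j, (P ^ (2 ^ (m + 1))) i j * φ i j) ∧
      (∀ i, ∑ l, (if s l = i then W l else 0) • v l = 0) ∧
      (∀ i, ∑ l, (if e l = i then W l else 0) • b l = 0) ∧
      (∀ l, W l ≠ 0 → f (e l) - f (s l) = v l - b l) ∧
      ∑ l, W l * N (v l) ^ p ≤ (2 ^ p * (1 - δ / 4)) ^ m *
        ∑ i, ∑ j, P i j * N (f j - avg P f i) ^ p ∧
      ∑ l, W l * N (b l) ^ p ≤ (2 ^ p * (1 - δ / 4)) ^ m *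
        ∑ i, ∑ j, P i j * N (f j - avg P f i) ^ p := by
  have hcol : ∀ j, ∑ i, P i j = 1 := by
    intro j
    rw [← hP.row_sum j]
    exact Finset.sum_congr rfl fun i _ => hP.symm i j
  have havg : ∀ j, ∑ k, P j k • (f k - avg P f j) = 0 := by
    intro j
    simp only [smul_sub, Finset.sum_sub_distrib, ← Finset.sum_smul, hP.row_sum, one_smul]
    exact sub_self _
  induction m with
  | zero =>
    refine ⟨S × S × S, inferInstance, fun q => P q.1 q.2.1 * P q.2.1 q.2.2, fun q => q.1,
      fun q => q.2.2, fun q => f q.2.2 - avg P f q.2.1, fun q => f q.1 - avg P f q.2.1,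
      fun q => mul_nonneg (hP.nonneg _ _) (hP.nonneg _ _), ?_, ?_, ?_, ?_, ?_, ?_⟩
    · intro φ
      simp only [Fintype.sum_prod_type]
      refine Finset.sum_congr rfl fun i _ => ?_
      rw [Finset.sum_comm]
      refine Finset.sum_congr rfl fun k _ => ?_
      rw [← Finset.sum_mul]
      congr 1
      rw [show 2 ^ (0 + 1) = 2 from rfl, pow_two, Matrix.mul_apply]
    · intro i0
      simp only [Fintype.sum_prod_type]
      refine Finset.sum_eq_zero fun i _ => ?_
      by_cases hi : i = i0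
      · simp only [hi, if_true]
        refine Finset.sum_eq_zero fun j _ => ?_
        have := havg j
        calc ∑ k, (P i0 j * P j k) • (f k - avg P f j)
            = P i0 j • ∑ k, P j k • (f k - avg P f j) := by
              rw [Finset.smul_sum]
              exact Finset.sum_congr rfl fun k _ => by rw [smul_smul]
          _ = 0 := by rw [this, smul_zero]
      · simp only [hi, if_false, zero_smul, Finset.sum_const_zero]
    · intro k0
      simp only [Fintype.sum_prod_type]
      have e1 : ∀ i : S, ∑ j, ∑ k, (if k = k0 then P i j * P j k else 0) • (f i - avg P f j) =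
          ∑ j, (P i j * P j k0) • (f i - avg P f j) := by
        intro i
        refine Finset.sum_congr rfl fun j _ => ?_
        rw [← Finset.sum_smul]
        congr 1
        simp
      simp only [e1]
      rw [Finset.sum_comm]
      refine Finset.sum_eq_zero fun j _ => ?_
      have := havg j
      calc ∑ i, (P i j * P j k0) • (f i - avg P f j)
          = P j k0 • ∑ i, P j i • (f i - avg P f j) := by
            rw [Finset.smul_sum]
            exact Finset.sum_congr rfl fun i _ => by rw [smul_smul, hP.symm i j, mul_comm]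
        _ = 0 := by rw [this, smul_zero]
    · intro q _
      exact (sub_sub_sub_cancel_right _ _ _).symm
    · rw [pow_zero, one_mul]
      refine le_of_eq ?_
      simp only [Fintype.sum_prod_type]
      rw [Finset.sum_comm]
      refine Finset.sum_congr rfl fun j _ => ?_
      rw [Finset.sum_comm]
      refine Finset.sum_congr rfl fun k _ => ?_
      simp only [mul_assoc]
      rw [← Finset.sum_mul, hcol, one_mul]
    · rw [pow_zero, one_mul]
      refine le_of_eq ?_
      simp only [Fintype.sum_prod_type]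
      rw [Finset.sum_comm]
      refine Finset.sum_congr rfl fun j _ => ?_
      refine Finset.sum_congr rfl fun i _ => ?_
      rw [← Finset.sum_mul, ← Finset.mul_sum, hP.row_sum, mul_one, hP.symm i j]
  | succ m ih =>
    obtain ⟨Λ, _, W, s, e, v, b, hW, htwo, hv, hb, htele, hvA, hbA⟩ := ih
    set Q := P ^ (2 ^ (m + 1)) with hQ
    have hQs : IsSymmChain Q := hP.pow _
    have ms : ∀ i, ∑ l, (if s l = i then W l else 0) = 1 := by
      intro i
      have h1 := htwo (fun i' _ => if i' = i then 1 else 0)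
      simp only [mul_ite, mul_one, mul_zero] at h1
      rw [h1]
      have e1 : ∀ i' : S, ∑ j, (if i' = i then Q i' j else 0) = if i' = i then 1 else 0 := by
        intro i'
        by_cases hi : i' = i
        · simp only [hi, if_true]; exact hQs.row_sum i
        · simp only [hi, if_false, Finset.sum_const_zero]
      simp only [e1]
      simp
    have me : ∀ i, ∑ l, (if e l = i then W l else 0) = 1 := by
      intro i
      have h1 := htwo (fun _ j => if j = i then 1 else 0)
      simp only [mul_ite, mul_one, mul_zero] at h1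
      rw [h1, Finset.sum_comm]
      have e1 : ∀ j : S, ∑ i', (if j = i then Q i' j else 0) = if j = i then 1 else 0 := by
        intro j
        by_cases hi : j = i
        · simp only [hi, if_true]
          rw [← hQs.row_sum i]
          exact Finset.sum_congr rfl fun k _ => hQs.symm k i
        · simp only [hi, if_false, Finset.sum_const_zero]
      simp only [e1]
      simp
    refine ⟨Λ × Λ, inferInstance, fun q => if e q.1 = s q.2 then W q.1 * W q.2 else 0,
      fun q => s q.1, fun q => e q.2, fun q => v q.1 + v q.2, fun q => b q.1 + b q.2,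
      fun q => ?_, ?_, ?_, ?_, ?_, ?_, ?_⟩
    · dsimp only
      split_ifs
      · exact mul_nonneg (hW _) (hW _)
      · exact le_rfl
    · intro φ
      simp only [Fintype.sum_prod_type]
      have e1 : ∀ l k, (if e l = s k then W l * W k else 0) * φ (s l) (e k) =
          W l * (W k * (if s k = e l then φ (s l) (e k) else 0)) := by
        intro l k
        by_cases hk : e l = s k
        · rw [if_pos hk, if_pos hk.symm]; ring
        · rw [if_neg hk, if_neg fun h => hk h.symm]; ring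
      simp only [e1, ← Finset.mul_sum]
      have e2 : ∀ l, ∑ k, W k * (if s k = e l then φ (s l) (e k) else 0) =
          ∑ j, Q (e l) j * φ (s l) j := by
        intro l
        rw [htwo (fun i j => if i = e l then φ (s l) j else 0)]
        have e3 : ∀ i : S, ∑ j, Q i j * (if i = e l then φ (s l) j else 0) =
            if i = e l then ∑ j, Q (e l) j * φ (s l) j else 0 := by
          intro i
          by_cases hi : i = e l
          · simp only [hi, if_true]
          · simp only [hi, if_false, mul_zero, Finset.sum_const_zero]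
        simp only [e3]
        simp
      simp only [e2]
      rw [htwo (fun i k => ∑ j, Q k j * φ i j)]
      refine Finset.sum_congr rfl fun i _ => ?_
      have e4 : P ^ (2 ^ (m + 1 + 1)) = Q * Q := by
        rw [hQ, ← pow_add]
        congr 1
        ring
      rw [e4]
      simp only [Matrix.mul_apply, Finset.mul_sum, Finset.sum_mul]
      rw [Finset.sum_comm]
      exact Finset.sum_congr rfl fun j _ => Finset.sum_congr rfl fun k _ => by ring
    · intro i
      simp only [Fintype.sum_prod_type]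
      have e1 : ∀ l k, (if s l = i then (if e l = s k then W l * W k else 0) else 0) •
          (v l + v k) = (if s l = i then W l else 0) •
            ((if s k = e l then W k else 0) • (v l + v k)) := by
        intro l k
        by_cases hi : s l = i
        · by_cases hk : e l = s k
          · simp only [if_pos hi, if_pos hk, if_pos hk.symm, smul_smul]
          · simp only [if_pos hi, if_neg hk, if_neg (fun h => hk h.symm : ¬ s k = e l), zero_smul,
              smul_zero]
        · simp only [if_neg hi, zero_smul]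
      simp only [e1, ← Finset.smul_sum]
      have e2 : ∀ l, ∑ k, (if s k = e l then W k else 0) • (v l + v k) = v l := by
        intro l
        simp only [smul_add, Finset.sum_add_distrib, ← Finset.sum_smul]
        rw [ms, hv, one_smul, add_zero]
      simp only [e2]
      exact hv i
    · intro i
      simp only [Fintype.sum_prod_type]
      rw [Finset.sum_comm]
      have e1 : ∀ k l, (if e k = i then (if e l = s k then W l * W k else 0) else 0) •
          (b l + b k) = (if e k = i then W k else 0) •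
            ((if e l = s k then W l else 0) • (b l + b k)) := by
        intro k l
        by_cases hi : e k = i
        · by_cases hk : e l = s k
          · simp only [if_pos hi, if_pos hk, smul_smul, mul_comm]
          · simp only [if_pos hi, if_neg hk, zero_smul, smul_zero]
        · simp only [if_neg hi, zero_smul]
      simp only [e1, ← Finset.smul_sum]
      have e2 : ∀ k, ∑ l, (if e l = s k then W l else 0) • (b l + b k) = b k := by
        intro k
        simp only [smul_add, Finset.sum_add_distrib, ← Finset.sum_smul]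
        rw [me, hb, one_smul, zero_add]
      simp only [e2]
      exact hb i
    · intro q hq
      dsimp only at hq ⊢
      have hes : e q.1 = s q.2 := by
        by_contra hne
        exact hq (if_neg hne)
      rw [if_pos hes] at hq
      have h1 := htele q.1 (left_ne_zero_of_mul hq)
      have h2 := htele q.2 (right_ne_zero_of_mul hq)
      rw [hes] at h1
      calc f (e q.2) - f (s q.1) = (f (e q.2) - f (s q.2)) + (f (s q.2) - f (s q.1)) := by abel
        _ = (v q.2 - b q.2) + (v q.1 - b q.1) := by rw [h2, h1]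
        _ = _ := by abel
    · have := step N hp hδ0 hδ1 h W hW s e v ms me hv hvA
      simp only [Fintype.sum_prod_type]
      refine this.trans (le_of_eq ?_)
      rw [pow_succ]
      ring
    · have := step N hp hδ0 hδ1 h W hW e s b me ms hb hbA
      simp only [Fintype.sum_prod_type]
      rw [Finset.sum_comm]
      refine le_trans (le_of_eq ?_) (this.trans (le_of_eq ?_))
      · refine Finset.sum_congr rfl fun k _ => Finset.sum_congr rfl fun l _ => ?_
        rw [add_comm (b l) (b k)]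
        by_cases hk : e l = s k
        · rw [if_pos hk, if_pos hk.symm, mul_comm (W l)]
        · rw [if_neg hk, if_neg fun h => hk h.symm]
      · rw [pow_succ]
        ring

/-- one-time estimate for the uniformly convex norm `N` -/
theorem uc_time (N : Seminorm ℝ X) {p : ℝ} (hp : 1 < p) {δ : ℝ} (hδ0 : 0 < δ) (hδ1 : δ ≤ 1)
    (h : ∀ x y : X, N ((1 / 2 : ℝ) • (x + y)) ^ p ≤
        (1 + δ / 4) * ((N x ^ p + N y ^ p) / 2) - δ * N (x - y) ^ p)
    {P : Matrix S S ℝ} (hP : IsSymmChain P) (f : S → X) (m : ℕ) :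
    ∑ i, ∑ j, (P ^ (2 ^ (m + 1))) i j * N (f j - f i) ^ p ≤
      2 ^ p * ((2 ^ p * (1 - δ / 4)) ^ m * (2 ^ p * ∑ i, ∑ j, P i j * N (f j - f i) ^ p)) := by
  obtain ⟨Λ, _, W, s, e, v, b, hW, htwo, hv, hb, htele, hvA, hbA⟩ :=
    exists_paths N hp hδ0 hδ1 h hP f m
  have hr : 0 ≤ (2 : ℝ) ^ p * (1 - δ / 4) := mul_nonneg (by positivity) (by linarith)
  have h1 := htwo (fun i j => N (f j - f i) ^ p)
  rw [← h1]
  set m0 := ∑ i, ∑ j, P i j * N (f j - avg P f i) ^ p with hm0
  have h2 : ∑ l, W l * N (f (e l) - f (s l)) ^ p ≤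
      2 ^ p * ((∑ l, W l * N (v l) ^ p + ∑ l, W l * N (b l) ^ p) / 2) := by
    rw [← Finset.sum_add_distrib, Finset.sum_div, Finset.mul_sum]
    refine Finset.sum_le_sum fun l _ => ?_
    by_cases hl : W l = 0
    · rw [hl]; simp
    · rw [htele l hl]
      calc W l * N (v l - b l) ^ p ≤ W l * (2 ^ p * ((N (v l) ^ p + N (b l) ^ p) / 2)) :=
            mul_le_mul_of_nonneg_left (sub_le N hp.le _ _) (hW l)
        _ = _ := by ring
  have h3 : m0 ≤ 2 ^ p * ∑ i, ∑ j, P i j * N (f j - f i) ^ p := by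
    rw [hm0, Finset.mul_sum]
    refine Finset.sum_le_sum fun i _ => ?_
    have h4 : N (avg P f i - f i) ^ p ≤ ∑ k, P i k * N (f k - f i) ^ p := by
      have h5 := jensen_pow N hp.le (P i) (hP.nonneg i) (hP.row_sum i) (fun k => f k - f i)
      have h6 : ∑ k, P i k • (f k - f i) = avg P f i - f i := by
        simp only [smul_sub, Finset.sum_sub_distrib, ← Finset.sum_smul, hP.row_sum, one_smul]
        rfl
      rwa [h6] at h5
    have h7 : ∀ j, P i j * N (f j - avg P f i) ^ p ≤
        2 ^ p * ((P i j * N (f j - f i) ^ p + P i j * N (avg P f i - f i) ^ p) / 2) := by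
      intro j
      have h8 := sub_le N hp.le (f j - f i) (avg P f i - f i)
      rw [sub_sub_sub_cancel_right] at h8
      calc _ ≤ P i j * (2 ^ p * ((N (f j - f i) ^ p + N (avg P f i - f i) ^ p) / 2)) :=
            mul_le_mul_of_nonneg_left h8 (hP.nonneg i j)
        _ = _ := by ring
    refine (Finset.sum_le_sum fun j _ => h7 j).trans ?_
    rw [← Finset.mul_sum]
    refine mul_le_mul_of_nonneg_left ?_ (by positivity)
    rw [← Finset.sum_div, Finset.sum_add_distrib, ← Finset.sum_mul, hP.row_sum, one_mul]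
    linarith
  calc _ ≤ _ := h2
    _ ≤ 2 ^ p * ((2 ^ p * (1 - δ / 4)) ^ m * m0) :=
        mul_le_mul_of_nonneg_left (by linarith) (by positivity)
    _ ≤ _ := by
        refine mul_le_mul_of_nonneg_left ?_ (by positivity)
        exact mul_le_mul_of_nonneg_left h3 (pow_nonneg hr m)

end Sums

/-- A superreflexive space satisfies an improved one-time inequality for every exponent. -/
theorem oneTime_of_superreflexive {X : Type*} [NormedAddCommGroup X] [NormedSpace ℝ X]
    (hX : Superreflexive X) {p : ℝ} (hp : 1 < p) :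
    ∃ (t : ℕ) (c : ℝ), 1 ≤ t ∧ c < (t : ℝ) ^ p ∧ OneTimeIneq X p t c := by
  obtain ⟨N, ⟨a, b, ha, hb, hab⟩, hN⟩ := hX
  obtain ⟨δ, hδ0, hδ1, h⟩ := uc_ineq N hN hp
  have hp0 : 0 < p := by linarith
  have hlim : Tendsto (fun m : ℕ => ((b / a) ^ p * 2 ^ p) * (1 - δ / 4) ^ m) atTop (𝓝 0) := by
    have := (tendsto_pow_atTop_nhds_zero_of_lt_one (by linarith : (0 : ℝ) ≤ 1 - δ / 4)
      (by linarith : 1 - δ / 4 < 1)).const_mul ((b / a) ^ p * 2 ^ p)
    simpa using this
  obtain ⟨m, hm⟩ := (hlim.eventually_lt_const one_pos).exists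
  refine ⟨2 ^ (m + 1), (b / a) ^ p * (2 ^ p * ((2 ^ p * (1 - δ / 4)) ^ m * 2 ^ p)),
    Nat.one_le_two_pow, ?_, ?_⟩
  · have e : (((2 ^ (m + 1) : ℕ) : ℝ)) ^ p = (2 ^ p) ^ m * 2 ^ p := by
      push_cast
      rw [← pow_succ, ← Real.rpow_natCast, ← Real.rpow_natCast, ← Real.rpow_mul (by norm_num),
        ← Real.rpow_mul (by norm_num), mul_comm]
    rw [e]
    have h1 : (0 : ℝ) < (2 ^ p) ^ m * 2 ^ p := by positivity
    calc (b / a) ^ p * (2 ^ p * ((2 ^ p * (1 - δ / 4)) ^ m * 2 ^ p))
        = (((b / a) ^ p * 2 ^ p) * (1 - δ / 4) ^ m) * ((2 ^ p) ^ m * 2 ^ p) := by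
          rw [mul_pow]; ring
      _ < 1 * ((2 ^ p) ^ m * 2 ^ p) := mul_lt_mul_of_pos_right hm h1
      _ = _ := one_mul _
  · intro S _ _ P hP f
    have h1 := uc_time N hp hδ0 hδ1 h hP f m
    have hPt := hP.pow (2 ^ (m + 1))
    have h2 : a ^ p * ∑ i, ∑ j, (P ^ (2 ^ (m + 1))) i j * dist (f i) (f j) ^ p ≤
        ∑ i, ∑ j, (P ^ (2 ^ (m + 1))) i j * N (f j - f i) ^ p := by
      rw [Finset.mul_sum]
      refine Finset.sum_le_sum fun i _ => ?_
      rw [Finset.mul_sum]
      refine Finset.sum_le_sum fun j _ => ?_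
      have h3 : a ^ p * dist (f i) (f j) ^ p ≤ N (f j - f i) ^ p := by
        rw [← Real.mul_rpow ha.le dist_nonneg, dist_comm, dist_eq_norm]
        exact Real.rpow_le_rpow (by positivity) (hab _).1 hp0.le
      calc _ = (P ^ (2 ^ (m + 1))) i j * (a ^ p * dist (f i) (f j) ^ p) := by ring
        _ ≤ _ := mul_le_mul_of_nonneg_left h3 (hPt.nonneg i j)
    have h4 : ∑ i, ∑ j, P i j * N (f j - f i) ^ p ≤
        b ^ p * ∑ i, ∑ j, P i j * dist (f i) (f j) ^ p := by
      rw [Finset.mul_sum]
      refine Finset.sum_le_sum fun i _ => ?_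
      rw [Finset.mul_sum]
      refine Finset.sum_le_sum fun j _ => ?_
      have h3 : N (f j - f i) ^ p ≤ b ^ p * dist (f i) (f j) ^ p := by
        rw [← Real.mul_rpow hb.le dist_nonneg, dist_comm, dist_eq_norm]
        exact Real.rpow_le_rpow (apply_nonneg _ _) (hab _).2 hp0.le
      calc _ ≤ P i j * (b ^ p * dist (f i) (f j) ^ p) :=
            mul_le_mul_of_nonneg_left h3 (hP.nonneg i j)
        _ = _ := by ring
    set D1 := ∑ i, ∑ j, P i j * dist (f i) (f j) ^ p with hD1
    have hr : 0 ≤ (2 : ℝ) ^ p * (1 - δ / 4) := mul_nonneg (by positivity) (by linarith)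
    have hap : (0 : ℝ) < a ^ p := Real.rpow_pos_of_pos ha p
    refine le_of_mul_le_mul_left ?_ hap
    calc _ ≤ _ := h2
      _ ≤ _ := h1
      _ ≤ 2 ^ p * ((2 ^ p * (1 - δ / 4)) ^ m * (2 ^ p * (b ^ p * D1))) := by
          refine mul_le_mul_of_nonneg_left ?_ (by positivity)
          refine mul_le_mul_of_nonneg_left ?_ (pow_nonneg hr m)
          exact mul_le_mul_of_nonneg_left h4 (by positivity)
      _ = _ := by
          rw [Real.div_rpow hb.le ha.le]
          field_simp

end P125
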