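import Vale.Agent.P125.H295.Lin

/-!
# P125 : the single-time theorem for coarse Lipschitz subsets of metric spaces
-/

set_option linter.all false

namespace P125

open Finset Filter Topology

namespace IsSymmChain

variable {S : Type} [Fintype S] [DecidableEq S]

theorem one : IsSymmChain (1 : Matrix S S ℝ) := by
  refine ⟨fun i j => ?_, fun i => ?_, fun i j => ?_⟩
  · rw [Matrix.one_apply]; split_ifs <;> norm_num
  · simp [Matrix.one_apply]
  · rw [Matrix.one_apply, Matrix.one_apply]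
    simp only [eq_comm]

theorem pow {P : Matrix S S ℝ} (h : IsSymmChain P) (n : ℕ) : IsSymmChain (P ^ n) := by
  have hT : P.transpose = P := by
    ext i j
    exact h.symm j i
  have hn : ∀ n : ℕ, (P ^ n).transpose = P ^ n := fun n => by rw [Matrix.transpose_pow, hT]
  refine ⟨?_, ?_, fun i j => ?_⟩
  · induction n with
    | zero => exact one.nonneg
    | succ n ih =>
      intro i j
      rw [pow_succ, Matrix.mul_apply]
      exact Finset.sum_nonneg fun k _ => mul_nonneg (ih i k) (h.nonneg k j)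
  · induction n with
    | zero => exact one.row_sum
    | succ n ih =>
      intro i
      simp only [pow_succ, Matrix.mul_apply]
      rw [Finset.sum_comm]
      simp only [← Finset.mul_sum, h.row_sum, mul_one, ih i]
  · have := congrFun (congrFun (hn n) j) i
    rw [Matrix.transpose_apply] at this
    exact this

end IsSymmChain

/-- sum of `P i j * d(f i, f j) ^ p` -/
theorem dsum_nonneg {M : Type*} [PseudoMetricSpace M] {S : Type} [Fintype S] [DecidableEq S]
    {P : Matrix S S ℝ} (hP : IsSymmChain P) (f : S → M) (p : ℝ) :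
    0 ≤ ∑ i, ∑ j, P i j * dist (f i) (f j) ^ p :=
  Finset.sum_nonneg fun i _ => Finset.sum_nonneg fun j _ =>
    mul_nonneg (hP.nonneg i j) (Real.rpow_nonneg dist_nonneg p)

theorem OneTimeIneq.mono {M : Type*} [PseudoMetricSpace M] {p : ℝ} {t : ℕ} {c c' : ℝ}
    (h : OneTimeIneq M p t c) (hc : c ≤ c') : OneTimeIneq M p t c' := by
  intro S _ _ P hP f
  exact (h S P hP f).trans (mul_le_mul_of_nonneg_right hc (dsum_nonneg hP f p))

/-- Iteration of the one-time inequality. -/
theorem OneTimeIneq.iter {M : Type*} [PseudoMetricSpace M] {p : ℝ} {t : ℕ} {c : ℝ} (hc : 0 ≤ c)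
    (h : OneTimeIneq M p t c) (k : ℕ) : OneTimeIneq M p (t ^ k) (c ^ k) := by
  induction k with
  | zero =>
    intro S _ _ P hP f
    simp
  | succ k ih =>
    intro S _ _ P hP f
    have h1 := h S (P ^ (t ^ k)) (hP.pow _) f
    have h2 := ih S P hP f
    have e : P ^ t ^ (k + 1) = (P ^ (t ^ k)) ^ t := by rw [← pow_mul, pow_succ]
    rw [e]
    calc _ ≤ _ := h1
      _ ≤ c * (c ^ k * ∑ i, ∑ j, P i j * dist (f i) (f j) ^ p) :=
        mul_le_mul_of_nonneg_left h2 hc
      _ = _ := by rw [pow_succ]; ring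

/-- Transfer to a normed space along a coarse Lipschitz embedding. -/
theorem one_of_coarse {X : Type*} [NormedAddCommGroup X] [NormedSpace ℝ X] {M : Type*}
    [PseudoMetricSpace M] {F : X → M} {θ a A : ℝ} (ha : 0 < a) (hA : 0 < A)
    (hF : ∀ x y, θ ≤ dist x y →
      a * dist x y ≤ dist (F x) (F y) ∧ dist (F x) (F y) ≤ A * dist x y)
    {p : ℝ} (hp : 0 < p) {t : ℕ} {c : ℝ} (hc : 0 ≤ c) (h : OneTimeIneq M p t c) :
    One (fun x : X => ‖x‖) p t (c * (A / a) ^ p) := by
  intro S _ _ _ P hP f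
  -- a large dilation
  have hn : ∃ n : ℕ, 0 < n ∧ ∀ i j : S, f i = f j ∨ θ ≤ (n : ℝ) * ‖f j - f i‖ := by
    have h1 : ∀ i j : S, ∀ᶠ n : ℕ in atTop, f i = f j ∨ θ ≤ (n : ℝ) * ‖f j - f i‖ := by
      intro i j
      by_cases hij : f i = f j
      · exact Filter.Eventually.of_forall fun _ => Or.inl hij
      · have hpos : 0 < ‖f j - f i‖ := by
          rw [norm_pos_iff, sub_ne_zero]
          exact fun h => hij h.symm
        have h2 : Tendsto (fun n : ℕ => (n : ℝ) * ‖f j - f i‖) atTop atTop :=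
          tendsto_natCast_atTop_atTop.atTop_mul_const hpos
        filter_upwards [h2.eventually_ge_atTop θ] with n hn using Or.inr hn
    have h3 : ∀ᶠ n : ℕ in atTop, ∀ i j : S, f i = f j ∨ θ ≤ (n : ℝ) * ‖f j - f i‖ :=
      Filter.eventually_all.2 fun i => Filter.eventually_all.2 fun j => h1 i j
    obtain ⟨n, hn1, hn2⟩ := (h3.and (Filter.eventually_gt_atTop 0)).exists
    exact ⟨n, hn2, hn1⟩
  obtain ⟨n, hn0, hn⟩ := hn
  have hn0' : (0 : ℝ) < n := by exact_mod_cast hn0
  set g : S → M := fun i => F ((n : ℝ) • f i) with hg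
  have hd : ∀ i j : S, dist ((n : ℝ) • f i) ((n : ℝ) • f j) = n * ‖f j - f i‖ := by
    intro i j
    rw [dist_eq_norm, ← smul_sub, norm_smul, Real.norm_of_nonneg hn0'.le, norm_sub_rev]
  have hg1 : ∀ i j : S, a * (n * ‖f j - f i‖) ≤ dist (g i) (g j) ∧
      dist (g i) (g j) ≤ A * (n * ‖f j - f i‖) := by
    intro i j
    rcases hn i j with hij | hij
    · have : g i = g j := by simp only [hg, hij]
      rw [this, hij, dist_self, sub_self, norm_zero, mul_zero, mul_zero, mul_zero]
      exact ⟨le_rfl, le_rfl⟩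
    · have := hF ((n : ℝ) • f i) ((n : ℝ) • f j) (by rw [hd]; exact hij)
      rwa [hd] at this
  have key := h S P hP g
  have hPt := hP.pow t
  -- lower bound of the left side
  have hlow : (a * n) ^ p * ∑ i, ∑ j, (P ^ t) i j * ‖f j - f i‖ ^ p ≤
      ∑ i, ∑ j, (P ^ t) i j * dist (g i) (g j) ^ p := by
    rw [Finset.mul_sum]
    refine Finset.sum_le_sum fun i _ => ?_
    rw [Finset.mul_sum]
    refine Finset.sum_le_sum fun j _ => ?_
    have h1 : (a * n) ^ p * ‖f j - f i‖ ^ p ≤ dist (g i) (g j) ^ p := by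
      rw [← Real.mul_rpow (by positivity) (norm_nonneg _)]
      refine Real.rpow_le_rpow (by positivity) ?_ hp.le
      rw [mul_assoc]
      exact (hg1 i j).1
    calc (a * n) ^ p * ((P ^ t) i j * ‖f j - f i‖ ^ p)
        = (P ^ t) i j * ((a * n) ^ p * ‖f j - f i‖ ^ p) := by ring
      _ ≤ _ := mul_le_mul_of_nonneg_left h1 (hPt.nonneg i j)
  have hup : ∑ i, ∑ j, P i j * dist (g i) (g j) ^ p ≤
      (A * n) ^ p * ∑ i, ∑ j, P i j * ‖f j - f i‖ ^ p := by
    rw [Finset.mul_sum]
    refine Finset.sum_le_sum fun i _ => ?_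
    rw [Finset.mul_sum]
    refine Finset.sum_le_sum fun j _ => ?_
    have h1 : dist (g i) (g j) ^ p ≤ (A * n) ^ p * ‖f j - f i‖ ^ p := by
      rw [← Real.mul_rpow (by positivity) (norm_nonneg _)]
      refine Real.rpow_le_rpow dist_nonneg ?_ hp.le
      rw [mul_assoc]
      exact (hg1 i j).2
    calc P i j * dist (g i) (g j) ^ p ≤ P i j * ((A * n) ^ p * ‖f j - f i‖ ^ p) :=
          mul_le_mul_of_nonneg_left h1 (hP.nonneg i j)
      _ = _ := by ring
  set Lt := ∑ i, ∑ j, (P ^ t) i j * ‖f j - f i‖ ^ p with hLt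
  set L1 := ∑ i, ∑ j, P i j * ‖f j - f i‖ ^ p with hL1
  have h5 : (a * n) ^ p * Lt ≤ c * ((A * n) ^ p * L1) :=
    hlow.trans (key.trans (mul_le_mul_of_nonneg_left hup hc))
  have h6 : (A * n) ^ p = (a * n) ^ p * (A / a) ^ p := by
    rw [← Real.mul_rpow (by positivity) (by positivity)]
    congr 1
    field_simp
  have h7 : (0 : ℝ) < (a * n) ^ p := Real.rpow_pos_of_pos (by positivity) p
  have h8 : Lt ≤ c * (A / a) ^ p * L1 := by
    rw [h6] at h5
    refine le_of_mul_le_mul_left ?_ h7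
    calc _ ≤ _ := h5
      _ = _ := by ring
  have hm : ∀ s : ℕ, moment (fun x : X => ‖x‖) p (fun _ : S => (Fintype.card S : ℝ)⁻¹) P f s =
      (Fintype.card S : ℝ)⁻¹ * ∑ i, ∑ j, (P ^ s) i j * ‖f j - f i‖ ^ p := by
    intro s
    unfold moment
    rw [Finset.mul_sum]
    refine Finset.sum_congr rfl fun i _ => ?_
    rw [Finset.mul_sum]
    exact Finset.sum_congr rfl fun j _ => by ring
  rw [hm, hm, pow_one]
  calc (Fintype.card S : ℝ)⁻¹ * Lt ≤ (Fintype.card S : ℝ)⁻¹ * (c * (A / a) ^ p * L1) :=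
        mul_le_mul_of_nonneg_left h8 (by positivity)
    _ = _ := by ring

/-- A single inequality at a single time, better than the trivial one, in a metric space that
contains a coarse Lipschitz copy of `X`, makes `X` superreflexive. -/
theorem superreflexive_of_oneTime {X : Type*} [NormedAddCommGroup X] [NormedSpace ℝ X]
    {M : Type*} [PseudoMetricSpace M] {F : X → M} (hF : CoarseLipschitzEmbedding F)
    {p : ℝ} (hp : 1 ≤ p) {t : ℕ} (ht : 1 ≤ t) {c : ℝ} (hc : c < (t : ℝ) ^ p)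
    (h : OneTimeIneq M p t c) :
    Superreflexive X ∧ ∃ N : Seminorm ℝ X, EquivalentNorm N ∧ UniformlySmoothNorm N := by
  obtain ⟨θ, a, A, ha, hFA⟩ := hF
  have htR : (0 : ℝ) < t := by exact_mod_cast ht
  have htp : (0 : ℝ) < (t : ℝ) ^ p := Real.rpow_pos_of_pos htR p
  set A' := max A 1 with hA'
  have hA'0 : 0 < A' := lt_of_lt_of_le one_pos (le_max_right _ _)
  have hFA' : ∀ x y, θ ≤ dist x y →
      a * dist x y ≤ dist (F x) (F y) ∧ dist (F x) (F y) ≤ A' * dist x y := fun x y hxy =>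
    ⟨(hFA x y hxy).1, (hFA x y hxy).2.trans
      (mul_le_mul_of_nonneg_right (le_max_left _ _) dist_nonneg)⟩
  set c' := max c 0 with hc'
  have hc'0 : 0 ≤ c' := le_max_right _ _
  have hc'1 : c' < (t : ℝ) ^ p := max_lt hc htp
  have h' : OneTimeIneq M p t c' := h.mono (le_max_left _ _)
  -- choose the number of iterations
  set r := c' / (t : ℝ) ^ p with hr
  have hr0 : 0 ≤ r := div_nonneg hc'0 htp.le
  have hr1 : r < 1 := (div_lt_one htp).2 hc'1
  have hlim : Tendsto (fun k : ℕ => 2 * ((A' / a) ^ p * 2 ^ p) * r ^ k) atTop (𝓝 0) := by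
    have := (tendsto_pow_atTop_nhds_zero_of_lt_one hr0 hr1).const_mul
      (2 * ((A' / a) ^ p * 2 ^ p))
    simpa using this
  obtain ⟨k, hk⟩ := (hlim.eventually_lt_const one_pos).exists
  have hone := one_of_coarse ha hA'0 hFA' (by linarith : 0 < p) (pow_nonneg hc'0 k)
    (h'.iter hc'0 k)
  refine superreflexive_of_one hp (Nat.one_le_pow _ _ ht) (by positivity) hone ?_
  have e : ((t ^ k : ℕ) : ℝ) ^ p = ((t : ℝ) ^ p) ^ k := by
    push_cast
    rw [← Real.rpow_natCast, ← Real.rpow_natCast, ← Real.rpow_mul htR.le, ← Real.rpow_mul htR.le,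
      mul_comm]
  rw [e]
  have h9 : c' ^ k = r ^ k * ((t : ℝ) ^ p) ^ k := by
    rw [← mul_pow, hr, div_mul_cancel₀ _ htp.ne']
  have h10 : (0 : ℝ) < ((t : ℝ) ^ p) ^ k := pow_pos htp k
  calc 2 * (c' ^ k * (A' / a) ^ p * 2 ^ p)
      = (2 * ((A' / a) ^ p * 2 ^ p) * r ^ k) * ((t : ℝ) ^ p) ^ k := by rw [h9]; ring
    _ < 1 * ((t : ℝ) ^ p) ^ k := mul_lt_mul_of_pos_right hk h10
    _ = _ := one_mul _

/-- The trivial inequality: every pseudometric space satisfies the one-time inequality with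
constant `t ^ p`. -/
theorem oneTimeIneq_trivial (M : Type*) [PseudoMetricSpace M] {p : ℝ} (hp : 1 ≤ p) {t : ℕ}
    (ht : 1 ≤ t) : OneTimeIneq M p t ((t : ℝ) ^ p) := by
  have hp0 : 0 < p := by linarith
  induction t, ht using Nat.le_induction with
  | base =>
    intro S _ _ P hP f
    simp
  | succ t ht ih =>
    intro S _ _ P hP f
    have htR : (0 : ℝ) < t := by exact_mod_cast ht
    have hPt := hP.pow t
    have h1 := ih S P hP f
    -- convexity
    have hconv : ∀ x y : ℝ, 0 ≤ x → 0 ≤ y →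
        (x + y) ^ p ≤ (((t : ℝ) + 1) / t) ^ (p - 1) * x ^ p + ((t : ℝ) + 1) ^ (p - 1) * y ^ p := by
      intro x y hx hy
      have m1 : ((t : ℝ) + 1) / t * x ∈ Set.Ici (0 : ℝ) := Set.mem_Ici.2 (by positivity)
      have m2 : ((t : ℝ) + 1) * y ∈ Set.Ici (0 : ℝ) := Set.mem_Ici.2 (by positivity)
      have w1 : (0 : ℝ) ≤ (t : ℝ) / (t + 1) := by positivity
      have w2 : (0 : ℝ) ≤ 1 / ((t : ℝ) + 1) := by positivity
      have w3 : (t : ℝ) / (t + 1) + 1 / ((t : ℝ) + 1) = 1 := by field_simp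
      have h2 := (convexOn_rpow hp).2 m1 m2 w1 w2 w3
      simp only [smul_eq_mul] at h2
      have e1 : (t : ℝ) / (t + 1) * (((t : ℝ) + 1) / t * x) + 1 / ((t : ℝ) + 1) * (((t : ℝ) + 1) * y)
          = x + y := by field_simp
      rw [e1, Real.mul_rpow (by positivity) hx, Real.mul_rpow (by positivity) hy] at h2
      refine h2.trans (le_of_eq ?_)
      have e2 : (t : ℝ) / (t + 1) * ((((t : ℝ) + 1) / t) ^ p * x ^ p) =
          (((t : ℝ) + 1) / t) ^ (p - 1) * x ^ p := by
        rw [Real.rpow_sub_one (by positivity)]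
        field_simp
      have e3 : 1 / ((t : ℝ) + 1) * (((t : ℝ) + 1) ^ p * y ^ p) =
          ((t : ℝ) + 1) ^ (p - 1) * y ^ p := by
        rw [Real.rpow_sub_one (by positivity)]
        field_simp
      rw [e2, e3]
    -- expand the product
    have h3 : ∑ i, ∑ j, (P ^ (t + 1)) i j * dist (f i) (f j) ^ p ≤
        (((t : ℝ) + 1) / t) ^ (p - 1) * ∑ i, ∑ j, (P ^ t) i j * dist (f i) (f j) ^ p +
          ((t : ℝ) + 1) ^ (p - 1) * ∑ i, ∑ j, P i j * dist (f i) (f j) ^ p := by
      have h4 : ∀ i j : S, (P ^ (t + 1)) i j * dist (f i) (f j) ^ p ≤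
          ∑ k, ((P ^ t) i k * P k j) * ((((t : ℝ) + 1) / t) ^ (p - 1) * dist (f i) (f k) ^ p +
            ((t : ℝ) + 1) ^ (p - 1) * dist (f k) (f j) ^ p) := by
        intro i j
        rw [pow_succ, Matrix.mul_apply, Finset.sum_mul]
        refine Finset.sum_le_sum fun k _ => ?_
        refine mul_le_mul_of_nonneg_left ?_ (mul_nonneg (hPt.nonneg i k) (hP.nonneg k j))
        refine (Real.rpow_le_rpow dist_nonneg (dist_triangle (f i) (f k) (f j)) hp0.le).trans ?_
        exact hconv _ _ dist_nonneg dist_nonneg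
      refine (Finset.sum_le_sum fun i _ => Finset.sum_le_sum fun j _ => h4 i j).trans ?_
      have hcol : ∀ k : S, ∑ i, (P ^ t) i k = 1 := by
        intro k
        rw [← hPt.row_sum k]
        exact Finset.sum_congr rfl fun i _ => hPt.symm i k
      have e1 : ∑ i, ∑ j, ∑ k, ((P ^ t) i k * P k j) *
          ((((t : ℝ) + 1) / t) ^ (p - 1) * dist (f i) (f k) ^ p +
            ((t : ℝ) + 1) ^ (p - 1) * dist (f k) (f j) ^ p) =
          ∑ i, ∑ k, ∑ j, (((((t : ℝ) + 1) / t) ^ (p - 1) * ((P ^ t) i k * dist (f i) (f k) ^ p)) *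
            P k j + (((t : ℝ) + 1) ^ (p - 1) * (P k j * dist (f k) (f j) ^ p)) * (P ^ t) i k) := by
        refine Finset.sum_congr rfl fun i _ => ?_
        rw [Finset.sum_comm]
        exact Finset.sum_congr rfl fun k _ => Finset.sum_congr rfl fun j _ => by ring
      rw [e1]
      simp only [Finset.sum_add_distrib, ← Finset.mul_sum, ← Finset.sum_mul, hP.row_sum, mul_one]
      refine add_le_add le_rfl (le_of_eq ?_)
      rw [Finset.sum_comm]
      simp only [← Finset.mul_sum, hcol, mul_one]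
    refine h3.trans ?_
    set L1 := ∑ i, ∑ j, P i j * dist (f i) (f j) ^ p with hL1
    have hL1' : 0 ≤ L1 := dsum_nonneg hP f p
    calc _ ≤ (((t : ℝ) + 1) / t) ^ (p - 1) * ((t : ℝ) ^ p * L1) + ((t : ℝ) + 1) ^ (p - 1) * L1 := by
          gcongr
      _ = ((t + 1 : ℕ) : ℝ) ^ p * L1 := by
          rw [Real.div_rpow (by positivity) htR.le, Real.rpow_sub_one htR.ne',
            Real.rpow_sub_one (by positivity)]
          push_cast
          have : (0 : ℝ) < (t : ℝ) ^ p := Real.rpow_pos_of_pos htR p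
          field_simp

end P125
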