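import Vale.Agent.P125.Defs

/-!
# P125 : definitions for the single-time form of the theorem
-/

namespace P125

/-- A symmetric stochastic matrix `P` on the finite set `S`: the transition matrix of a
stationary reversible Markov chain whose initial distribution is uniform on `S`. -/
structure IsSymmChain {S : Type} [Fintype S] (P : Matrix S S ℝ) : Prop where
  nonneg : ∀ i j, 0 ≤ P i j
  row_sum : ∀ i, ∑ j, P i j = 1
  symm : ∀ i j, P i j = P j i

/-- The Markov chain inequality at the single time `t`, with exponent `p` and constant `c`, in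
the (pseudo)metric space `M`, tested on symmetric chains only:
`E d(f(Z_t), f(Z_0)) ^ p ≤ c * E d(f(Z_1), f(Z_0)) ^ p` for every symmetric stochastic matrix `P`
on a finite set `S` (with `Z_0` uniform on `S`) and every `f : S → M`.  The common factor
`1 / |S|` of both sides is cancelled. -/
def OneTimeIneq (M : Type*) [PseudoMetricSpace M] (p : ℝ) (t : ℕ) (c : ℝ) : Prop :=
  ∀ (S : Type) [Fintype S] [DecidableEq S] (P : Matrix S S ℝ), IsSymmChain P → ∀ f : S → M,
    ∑ i, ∑ j, (P ^ t) i j * dist (f i) (f j) ^ p ≤
      c * ∑ i, ∑ j, P i j * dist (f i) (f j) ^ p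

/-- Coarse Lipschitz embedding (Kalton): at distances at least `θ` the map `F` is bi-Lipschitz,
with constants `a > 0` and `A`. Nothing (not even continuity) is asked at small distances. -/
def CoarseLipschitzEmbedding {X M : Type*} [PseudoMetricSpace X] [PseudoMetricSpace M]
    (F : X → M) : Prop :=
  ∃ θ a A : ℝ, 0 < a ∧ ∀ x y, θ ≤ dist x y →
    a * dist x y ≤ dist (F x) (F y) ∧ dist (F x) (F y) ≤ A * dist x y

end P125
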