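import Vale.Agent.P125.Bdl.B1
import Vale.Agent.P125.H295.Defs

/-!
# P125 : linear part of the single-time theorem

The inequality at one single time `t` with constant `c` for symmetric chains replaces the
Markov type inequality of the first version; a James family for this inequality is
impossible as soon as `2 ^ (p + 1) * c < t ^ p`.
-/

set_option linter.all false

namespace P125

open Finset Filter Topology

/-- The one-time inequality for a function `N` of the increments, for symmetric chains. -/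
def One {W : Type*} [AddCommGroup W] (N : W → ℝ) (p : ℝ) (t : ℕ) (c : ℝ) : Prop :=
  ∀ (S : Type) [Fintype S] [DecidableEq S] [Nonempty S] (P : Matrix S S ℝ), IsSymmChain P →
    ∀ f : S → W, moment N p (fun _ => (Fintype.card S : ℝ)⁻¹) P f t ≤
      c * moment N p (fun _ => (Fintype.card S : ℝ)⁻¹) P f 1

theorem mapChain_isSymm {U : Type} [Fintype U] [DecidableEq U] {L : Type} [Fintype L]
    [Nonempty U] [Nonempty L] (m : L → U → U)
    (hsymm : ∀ u v, (∑ l, if m l u = v then (1 : ℝ) else 0) =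
      ∑ l, if m l v = u then (1 : ℝ) else 0) : IsSymmChain (mapChain m) := by
  have h := mapChain_isStatRev m hsymm
  refine ⟨h.P_nonneg, h.P_sum, fun i j => ?_⟩
  unfold mapChain
  rw [hsymm i j]


theorem core_chain_one {U : Type} [Fintype U] [DecidableEq U] {d : ℕ} [Nonempty U]
    (T : Fin d → (U ≃. U)) (hd : 0 < d) {W : Type*} [AddCommGroup W]
    (ν : W → ℝ) (hν : ∀ x, 0 ≤ ν x) (hν0 : ν 0 = 0) (hνneg : ∀ x, ν (-x) = ν x)
    (f : U → W) (Pr : ℕ → U → Fin d → W → Prop) (hPr0 : ∀ u s, Pr 0 u s 0)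
    (hstep : ∀ i u s v s' u', Pr i u s v → s' ≠ s → (T s' u = some u' ∨ T s' u' = some u) →
      Pr (i + 1) u' s' (v + (f u' - f u)))
    {t : ℕ} (ht : 1 ≤ t) {β : ℝ} (hβ : 0 ≤ β) (hfin : ∀ u s v, Pr t u s v → t * β ≤ ν v)
    {γ : ℝ} (hγ : 0 ≤ γ) (hsmall : ∀ s u u', T s u = some u' → ν (f u' - f u) ≤ γ)
    {η : ℝ} (hη0 : 0 ≤ η)
    (hη : ∀ s, ((univ.filter (fun u => T s u = none)).card : ℝ) ≤ η * Fintype.card U)
    {p c : ℝ} (hp : 0 < p) (hc : 0 ≤ c) (hM : One ν p t c) :
    (1 - t * (1 / d + η)) * (t * β) ^ p ≤ c * γ ^ p := by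
  classical
  have hne : Nonempty (Fin d × Bool) := ⟨(⟨0, hd⟩, true)⟩
  have hU : (0 : ℝ) < Fintype.card U := by exact_mod_cast Fintype.card_pos
  have hL : (0 : ℝ) < Fintype.card (Fin d × Bool) := by exact_mod_cast Fintype.card_pos
  have hchain := mapChain_isSymm (mvD T) (mvD_symm T)
  have hineq := hM U _ hchain f
  rw [moment_mapChain, moment_mapChain] at hineq
  -- lower bound of the left side
  let s0 : Fin d := ⟨0, hd⟩
  have hlow : (1 - t * (1 / d + η)) * (t * β) ^ p ≤
      (Fintype.card U : ℝ)⁻¹ * ∑ u, (mapChain (mvD T) ^ t).mulVec (fun w => ν (f w - f u) ^ p) u := by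
    have h1 : ∀ u, good T t s0 u * (t * β) ^ p ≤
        (mapChain (mvD T) ^ t).mulVec (fun w => ν (f w - f u) ^ p) u := by
      intro u
      have := good_mul_le T ν hν f Pr hstep hβ hfin hp t 0 u s0 0 (hPr0 u s0) (by omega)
      simpa only [ge_iff_le, zero_add] using this
    have h2 := sum_one_sub_good_le T hd hη0 hη t s0
    rw [Finset.sum_sub_distrib, Finset.sum_const, Finset.card_univ, nsmul_eq_mul, mul_one] at h2
    have h3 : (1 - t * (1 / d + η)) * Fintype.card U ≤ ∑ u, good T t s0 u := by linarith only [h2]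
    have h4 : (0 : ℝ) ≤ (t * β) ^ p := by (clear * - ht hβ; positivity)
    rw [le_inv_mul_iff₀ hU]
    calc (Fintype.card U : ℝ) * ((1 - t * (1 / d + η)) * (t * β) ^ p)
        = ((1 - t * (1 / d + η)) * Fintype.card U) * (t * β) ^ p := by ring
      _ ≤ (∑ u, good T t s0 u) * (t * β) ^ p := mul_le_mul_of_nonneg_right h3 h4
      _ = ∑ u, good T t s0 u * (t * β) ^ p := by rw [Finset.sum_mul]
      _ ≤ _ := Finset.sum_le_sum fun u _ => h1 u
  -- upper bound of the right side
  have hup : (Fintype.card U : ℝ)⁻¹ * ∑ u, (mapChain (mvD T) ^ 1).mulVec (fun w => ν (f w - f u) ^ p) u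
      ≤ γ ^ p := by
    rw [inv_mul_le_iff₀ hU]
    have h1 : ∀ u, (mapChain (mvD T) ^ 1).mulVec (fun w => ν (f w - f u) ^ p) u ≤ γ ^ p := by
      intro u
      rw [pow_one, mapChain_mulVec, inv_mul_le_iff₀ hL]
      have h2 : ∀ l : Fin d × Bool, ν (f (mvD T l u) - f u) ^ p ≤ γ ^ p := by
        intro l
        refine Real.rpow_le_rpow (hν _) ?_ hp.le
        cases h : mv T l u with
        | none => simp [mvD, h, hν0, hγ]
        | some w =>
          have hw : mvD T l u = w := by simp [mvD, h]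
          rw [hw]
          unfold mv at h
          split_ifs at h
          · exact hsmall _ _ _ h
          · have : T l.1 w = some u := ((T l.1).mem_iff_mem (a := w) (b := u)).1 h
            have h3 := hsmall _ _ _ this
            rw [← hνneg, neg_sub] at h3
            exact h3
      calc _ ≤ ∑ l : Fin d × Bool, γ ^ p := Finset.sum_le_sum fun l _ => h2 l
        _ = _ := by rw [Finset.sum_const, Finset.card_univ, nsmul_eq_mul]
    calc _ ≤ ∑ u : U, γ ^ p := Finset.sum_le_sum fun u _ => h1 u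
      _ = _ := by rw [Finset.sum_const, Finset.card_univ, nsmul_eq_mul]
  calc _ ≤ _ := hlow
    _ ≤ _ := hineq
    _ ≤ _ := mul_le_mul_of_nonneg_left hup hc

theorem core_ineq_one (hA : LemmaAStatement) (hB : BoxStatement) {p c : ℝ} (hp : 1 ≤ p) (hc0 : 0 ≤ c)
    (ν : Seminorm ℝ (ℕ →₀ ℝ))
    (hmono : ∀ α : ℕ → ℕ, Monotone α → ∀ x : ℕ →₀ ℝ, ν (x.mapDomain α) ≤ ν x)
    (hpos : 0 < ν (Finsupp.single 0 1 - Finsupp.single 1 1))
    (t : ℕ) (ht : 1 ≤ t) (hM : One (fun x => ν x) p t c) :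
    (1 / 2 : ℝ) * (t : ℝ) ^ p ≤ c * 2 ^ p := by
  classical
  have htR : (0 : ℝ) < t := by exact_mod_cast ht
  set M' : ℕ := 5 * t with hM'def
  set M : ℕ := 2 * M' with hMdef
  set d : ℕ := 8 * t with hddef
  have hd : 2 ≤ d := by omega
  obtain ⟨n, hn, a, T, ha, hT, hc⟩ := hA d M hd (1 / (8 * t)) (by positivity)
  have : NeZero n := ⟨by omega⟩
  have : Nonempty (Fin n) := ⟨⟨0, hn⟩⟩
  -- displacement vectors
  let D : Fin d → Fin n → (ℕ →₀ ℝ) := fun s z =>
    match T s z with
    | some z' => chi d M s (a z) - chi d M s (a z')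
    | none => 0
  have hD : ∀ s z z', T s z = some z' → D s z = chi d M s (a z) - chi d M s (a z') := by
    intro s z z' h
    simp only [D, h]
  obtain ⟨U, _, _, _, T', q, f, hf, hT'⟩ := hB T D (8 * t) (by omega) (η := 1 / (8 * t))
    (by simpa only [one_div, mul_inv_rev, Fintype.card_fin] using hT)
  have hstep' : ∀ s u u', T' s u = some u' →
      Compat d M s (a (q u)) (a (q u')) ∧
        f u' - f u = chi d M s (a (q u)) - chi d M s (a (q u')) := by
    intro s u u' h
    obtain ⟨h1, h2⟩ := hf s u u' h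
    exact ⟨hc s _ _ h1, by rw [h2, hD s _ _ h1]⟩
  set β := ν (alt (2 * M')) with hβ
  have hβpos : 0 < β := alt_pos ν hmono hpos (by omega)
  have key := core_chain_one (U := U) (d := d) T' (by omega) (fun x => ν x)
    (fun x => apply_nonneg ν x) (map_zero ν) (fun x => map_neg_eq_map ν x) f
    (fun i u s v => Pat d M i (a (q u)) s v)
    (fun u s => pat_zero d M (ha _) s) ?_ ht hβpos.le ?_ (γ := 2 * β) (by positivity) ?_
    (η := 1 / (8 * t) + 1 / (8 * t)) (by positivity) ?_ (p := p) (c := c) (by linarith only [hp]) hc0 hM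
  · -- conclude
    have h1 : (1 / 2 : ℝ) ≤ 1 - t * (1 / (d : ℝ) + (1 / (8 * t) + 1 / (8 * t))) := by
      have : (d : ℝ) = 8 * t := by simp [hddef]
      rw [this]
      have h8 : (t : ℝ) * (1 / (8 * t) + (1 / (8 * t) + 1 / (8 * t))) = 3 / 8 := by
        field_simp; norm_num
      rw [h8]; norm_num
    rw [Real.mul_rpow htR.le hβpos.le, Real.mul_rpow (by norm_num) hβpos.le] at key
    have h2 : (0 : ℝ) < β ^ p := Real.rpow_pos_of_pos hβpos p
    have h3 : (0 : ℝ) ≤ (t : ℝ) ^ p * β ^ p := by (clear * - ht hβpos; positivity)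
    have h4 : (1 / 2 : ℝ) * ((t : ℝ) ^ p * β ^ p) ≤ c * (2 ^ p * β ^ p) :=
      (mul_le_mul_of_nonneg_right h1 h3).trans key
    have h5 : ((1 / 2 : ℝ) * (t : ℝ) ^ p) * β ^ p ≤ (c * 2 ^ p) * β ^ p := by
      calc _ = (1 / 2 : ℝ) * ((t : ℝ) ^ p * β ^ p) := by ring
        _ ≤ _ := h4
        _ = _ := by ring
    exact le_of_mul_le_mul_right h5 h2
  · -- induction step of the pattern
    intro i u s v s' u' hPr hne hT
    have hne' : (s' : ℕ) ≠ (s : ℕ) := fun h => hne (Fin.ext h)
    rcases hT with h | h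
    · obtain ⟨h1, h2⟩ := hstep' s' u u' h
      rw [h2]
      exact pat_step hd (ha _) (ha _) s.2 s'.2 hne' hPr (Or.inl h1)
    · obtain ⟨h1, h2⟩ := hstep' s' u' u h
      have h3 : f u' - f u = chi d M s' (a (q u)) - chi d M s' (a (q u')) := by
        rw [← neg_sub (f u), h2, neg_sub]
      rw [h3]
      exact pat_step hd (ha _) (ha _) s.2 s'.2 hne' hPr (Or.inr h1)
  · intro u s v hPr
    exact pat_final hd (by omega) (ha _) s.2 hPr ν hmono
  · intro s u u' h
    obtain ⟨h1, h2⟩ := hstep' s u u' h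
    obtain ⟨φ, hφ, h3⟩ := chi_sub_chi_eq hd (by omega) (ha _) (ha _) h1
    rw [h2, h3]
    exact (hmono φ hφ _).trans (alt_double_le ν hmono M')
  · intro s
    have := hT' s
    push_cast at this
    exact this


/-- James families for the one-time inequality. -/
def JamesFamilyOne (p : ℝ) (t : ℕ) (c θ : ℝ) : Prop :=
  ∀ k : ℕ, ∃ M : Seminorm ℝ (ℕ →₀ ℝ), (∀ j, M (Finsupp.single j 1) ≤ 1) ∧
    (∀ x : ℕ →₀ ℝ, (∀ j ∈ x.support, j < k) → ∀ r, θ * |tailSum x r| ≤ M x) ∧
    One (fun x => M x) p t c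


/-- The Markov type inequality passes from `X` to the seminorm. -/
theorem one_lpSeminorm {X : Type*} [NormedAddCommGroup X] [NormedSpace ℝ X]
    {V : Type*} [AddCommGroup V] [Module ℝ V] {ι : Type} [Fintype ι] (μ : ι → ℝ) (hμ : ∀ i, 0 ≤ μ i)
    (L : ι → V →ₗ[ℝ] X) {p c : ℝ} {t : ℕ} (hp : 1 ≤ p)
    (hX : One (fun x : X => ‖x‖) p t c) :
    One (fun x => lpSeminorm μ hμ L p hp x) p t c := by
  intro S _ _ _ P hP f
  have hp0 : 0 < p := by linarith only [hp]
  set π : S → ℝ := fun _ => (Fintype.card S : ℝ)⁻¹ with hπ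
  have key : ∀ s : ℕ, moment (fun x => lpSeminorm μ hμ L p hp x) p π P f s
      = ∑ i, μ i * moment (fun x : X => ‖x‖) p π P (fun j => L i (f j)) s := by
    intro s
    unfold moment
    simp_rw [lpSeminorm_rpow, Finset.mul_sum]
    have h1 : ∀ i : S, ∑ j, ∑ ω, π i * (P ^ s) i j * (μ ω * ‖L ω (f j - f i)‖ ^ p)
        = ∑ ω, ∑ j, π i * (P ^ s) i j * (μ ω * ‖L ω (f j - f i)‖ ^ p) :=
      fun i => Finset.sum_comm
    simp_rw [h1]
    rw [Finset.sum_comm]
    refine Finset.sum_congr rfl fun ω _ => Finset.sum_congr rfl fun i _ =>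
      Finset.sum_congr rfl fun j _ => ?_
    rw [map_sub]
    ring
  rw [key, key, Finset.mul_sum]
  refine Finset.sum_le_sum fun ω _ => ?_
  have := hX S P hP (fun i => L ω (f i))
  calc μ ω * _ ≤ μ ω * _ := mul_le_mul_of_nonneg_left this (hμ ω)
    _ = _ := by ring

/-- Long James data for the dual pairing are impossible if `X` has the Markov inequality. -/
theorem jbound_dual_one {X : Type*} [NormedAddCommGroup X] [NormedSpace ℝ X]
    {p c : ℝ} {t : ℕ} (hp : 1 ≤ p) (hX : One (fun x : X => ‖x‖) p t c)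
    (core : ∀ θ : ℝ, 0 < θ → ¬ JamesFamilyOne p t c θ) : JBound (pairDual X) := by
  intro lam hlam
  by_contra hcon
  push Not at hcon
  apply core (lam / 2) (by positivity)
  intro k
  obtain ⟨x₀, a, -, ⟨n, μ, M, g, cc, hμ0, hμ1, hM, hg, -, -, h0, hc, hca⟩, ha⟩ := hcon k
  set θ : ℝ := lam / 2 with hθdef
  have hθ : 0 < θ := by positivity
  have hcθ : ∀ j, j < k → θ < cc j := by
    intro j hj
    have h1 := hca j hj
    have h2 : lam / 2 < lam * a := by nlinarith only [hlam, ha]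
    linarith only [hθdef, h1, h2]
  set v : ℕ → Fin n → X := fun l i =>
    if l < k then (θ / cc (k - 1 - l)) • g (k - 1 - l) i else 0 with hv
  refine ⟨lpSeminorm μ hμ0 (fun i => Finsupp.linearCombination ℝ (fun l => v l i)) p hp,
    ?_, ?_, one_lpSeminorm _ _ _ _ hX⟩
  · intro j
    apply lpSeminorm_le_of_forall_le μ hμ0 hμ1 _ hp zero_le_one
    intro i
    rw [Finsupp.linearCombination_single, one_smul, hv]
    simp only
    split_ifs with hj
    · have h1 := hcθ (k - 1 - j) (by omega)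
      rw [norm_smul, Real.norm_of_nonneg (div_nonneg hθ.le (hθ.le.trans h1.le))]
      calc θ / cc (k - 1 - j) * ‖g (k - 1 - j) i‖ ≤ 1 * 1 := by
            apply mul_le_mul _ (hg _ _) (norm_nonneg _) zero_le_one
            rw [div_le_one (by linarith only [hθ, h1])]
            exact h1.le
        _ = 1 := one_mul 1
    · simp only [norm_zero, zero_le_one]
  · intro x hx r
    refine tail_le_lpSeminorm μ hμ0 hμ1 v hp hθ.le (k := k) (r := r)
      (fun i => M (k - r) i) (fun i => hM _ _) ?_ x hx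
    intro l hl
    have hj : k - 1 - l < k := by omega
    have hcj := hcθ _ hj
    have e1 : ∑ i, μ i * (M (k - r) i) (v l i)
        = (θ / cc (k - 1 - l)) * ∑ i, μ i * (pairDual X) (M (k - r) i) (g (k - 1 - l) i) := by
      rw [Finset.mul_sum]
      refine Finset.sum_congr rfl fun i _ => ?_
      simp only [hv, if_pos hl, map_smul, smul_eq_mul, pairDual, LinearMap.mk₂_apply]
      ring
    rw [e1]
    by_cases hr : r ≤ l
    · rw [if_pos hr, hc _ hj (k - r) (by omega), div_mul_cancel₀]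
      linarith only [hθ, hcj]
    · rw [if_neg hr, h0 _ hj (k - r) (by omega), mul_zero]

/-- Long James data for the primal pairing are impossible if `X` has the Markov inequality. -/
theorem jbound_primal_one {X : Type*} [NormedAddCommGroup X] [NormedSpace ℝ X]
    {p c : ℝ} {t : ℕ} (hp : 1 ≤ p) (hX : One (fun x : X => ‖x‖) p t c)
    (core : ∀ θ : ℝ, 0 < θ → ¬ JamesFamilyOne p t c θ) : JBound (pairPrimal X) := by
  intro lam hlam
  by_contra hcon
  push Not at hcon
  apply core (lam / 2) (by positivity)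
  intro k
  obtain ⟨x₀, a, -, ⟨n, μ, M, g, cc, hμ0, hμ1, hM, hg, -, -, h0, hc, hca⟩, ha⟩ := hcon k
  set θ : ℝ := lam / 2 with hθdef
  have hθ : 0 < θ := by positivity
  have hcθ : ∀ j, j < k → θ < cc j := by
    intro j hj
    have h1 := hca j hj
    have h2 : lam / 2 < lam * a := by nlinarith only [hlam, ha]
    linarith only [hθdef, h1, h2]
  set v : ℕ → Fin n → X := fun l i => M (l + 1) i with hv
  refine ⟨lpSeminorm μ hμ0 (fun i => Finsupp.linearCombination ℝ (fun l => v l i)) p hp,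
    ?_, ?_, one_lpSeminorm _ _ _ _ hX⟩
  · intro j
    apply lpSeminorm_le_of_forall_le μ hμ0 hμ1 _ hp zero_le_one
    intro i
    rw [Finsupp.linearCombination_single, one_smul, hv]
    exact hM _ _
  · intro x hx r
    rcases lt_or_ge r k with hrk | hrk
    · refine tail_le_lpSeminorm μ hμ0 hμ1 v hp hθ.le (k := k) (r := r)
        (fun i => (θ / cc r) • g r i) (fun i => ?_) ?_ x hx
      · have h1 := hcθ r hrk
        rw [norm_smul, Real.norm_of_nonneg (div_nonneg hθ.le (hθ.le.trans h1.le))]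
        calc θ / cc r * ‖g r i‖ ≤ 1 * 1 := by
              apply mul_le_mul _ (hg _ _) (norm_nonneg _) zero_le_one
              rw [div_le_one (by linarith only [hθ, h1])]
              exact h1.le
          _ = 1 := one_mul 1
      · intro l hl
        have hcj := hcθ _ hrk
        have e1 : ∑ i, μ i * ((θ / cc r) • g r i) (v l i)
            = (θ / cc r) * ∑ i, μ i * (pairPrimal X) (M (l + 1) i) (g r i) := by
          rw [Finset.mul_sum]
          refine Finset.sum_congr rfl fun i _ => ?_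
          simp only [hv, FunLike.coe_smul, Pi.smul_apply, smul_eq_mul, pairPrimal,
            LinearMap.mk₂_apply]
          ring
        rw [e1]
        by_cases hr : r ≤ l
        · rw [if_pos hr, hc _ hrk (l + 1) (by omega), div_mul_cancel₀]
          linarith only [hθ, hcj]
        · rw [if_neg hr, h0 _ hrk (l + 1) (by omega), mul_zero]
    · have : tailSum x r = 0 := by
        unfold tailSum
        rw [Finset.filter_false_of_mem, Finset.sum_empty]
        intro j hj
        have := hx j hj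
        omega
      rw [this, abs_zero, mul_zero]
      exact apply_nonneg _ _


theorem One.comp {V W : Type*} [AddCommGroup V] [AddCommGroup W] {N : W → ℝ} {p c : ℝ} {t : ℕ}
    (h : One N p t c) (L : V →+ W) : One (fun v => N (L v)) p t c := by
  intro S _ _ _ P hP f
  have := h S P hP (fun s => L (f s))
  simpa only [moment, map_sub] using this

theorem One.of_tendsto {V I : Type*} [AddCommGroup V] {l : Filter I} [l.NeBot]
    {N : I → V → ℝ} {M : V → ℝ} {p c : ℝ} {t : ℕ} (hp : 0 ≤ p)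
    (h : ∀ i, One (N i) p t c) (hM : ∀ x, Tendsto (fun i => N i x) l (𝓝 (M x))) :
    One M p t c := by
  intro S _ _ _ P hP f
  have hm : ∀ u : ℕ, Tendsto (fun i => moment (N i) p (fun _ => (Fintype.card S : ℝ)⁻¹) P f u) l
      (𝓝 (moment M p (fun _ => (Fintype.card S : ℝ)⁻¹) P f u)) := by
    intro u
    refine tendsto_finsetSum _ fun a _ => tendsto_finsetSum _ fun b _ => ?_
    exact ((hM _).rpow_const (Or.inr hp)).const_mul _
  exact le_of_tendsto_of_tendsto' (hm t) ((hm 1).const_mul _) fun i => h i S P hP f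


theorem exists_spreading_one {p c θ : ℝ} {t : ℕ} (hp : 0 ≤ p) (N : Seminorm ℝ (ℕ →₀ ℝ))
    (h1 : ∀ j, N (Finsupp.single j 1) ≤ 1) (h2 : ∀ x r, θ * |tailSum x r| ≤ N x)
    (h3 : One (fun x => N x) p t c) :
    ∃ M : Seminorm ℝ (ℕ →₀ ℝ), (∀ j, M (Finsupp.single j 1) ≤ 1) ∧
      (∀ x r, θ * |tailSum x r| ≤ M x) ∧ One (fun x => M x) p t c ∧
      ∀ ψ : ℕ → ℕ, StrictMono ψ → ∀ x : ℕ →₀ ℝ, M (x.mapDomain ψ) = M x := by
  have hmap : ∀ (ψ : ℕ → ℕ) j, mapSn N ψ (Finsupp.single j 1) ≤ 1 := by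
    intro ψ j
    rw [mapSn_apply, Finsupp.mapDomain_single]
    exact h1 _
  have hk : ∀ k : ℕ, ∃ M : Seminorm ℝ (ℕ →₀ ℝ),
      ∀ x, Tendsto (fun ψ => mapSn N ψ x) (itU k) (𝓝 (M x)) := fun k =>
    exists_ulim (itU k) (mapSn N) hmap
  choose Mk hMk using hk
  have hle1 : ∀ k j, Mk k (Finsupp.single j 1) ≤ 1 := fun k j =>
    le_of_tendsto' (hMk k _) fun ψ => hmap ψ j
  have hmark : ∀ k, One (fun x => Mk k x) p t c := by
    intro k
    refine One.of_tendsto (l := (itU k : Filter (ℕ → ℕ))) (N := fun ψ x => mapSn N ψ x)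
      hp (fun ψ => ?_) (hMk k)
    exact h3.comp (Finsupp.lmapDomain ℝ ℝ ψ : (ℕ →₀ ℝ) →ₗ[ℝ] (ℕ →₀ ℝ)).toAddMonoidHom
  -- spreadability at finite level
  have hsp : ∀ (k L : ℕ) (φ : ℕ → ℕ), (∀ i, i < k → φ i < L) →
      (∀ i, i + 1 < k → φ i < φ (i + 1)) → ∀ x : ℕ →₀ ℝ, (∀ j ∈ x.support, j < k) →
      Mk L (x.mapDomain φ) = Mk k x := by
    intro k L φ hφ1 hφ2 x hx
    refine tendsto_nhds_unique (hMk L (x.mapDomain φ)) ?_
    have e : (fun ψ => mapSn N ψ (x.mapDomain φ)) =
        fun ψ : ℕ → ℕ => mapSn N (truncSeq k (ψ ∘ φ)) x := by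
      funext ψ
      rw [mapSn_apply, mapSn_apply, ← Finsupp.mapDomain_comp]
      congr 1
      exact mapDomain_congr_lt hx fun i hi => by simp [truncSeq, hi]
    rw [e]
    intro s hs
    have h5 := hMk k x hs
    exact (itU_spread L k φ hφ1 hφ2 (fun ψ => mapSn N ψ x ∈ s)).2 h5
  obtain ⟨M, hM⟩ := exists_ulim (hyperfilter ℕ) Mk hle1
  have hMeq : ∀ (k : ℕ) (x : ℕ →₀ ℝ), (∀ j ∈ x.support, j < k) → M x = Mk k x := by
    intro k x hx
    refine tendsto_nhds_unique (hM x) ?_
    refine Tendsto.congr' ?_ tendsto_const_nhds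
    filter_upwards [hyper_gt k] with L hL
    have := hsp k L id (fun i hi => lt_trans hi hL) (fun i _ => Nat.lt_succ_self i) x hx
    rw [Finsupp.mapDomain_id] at this
    exact this.symm
  refine ⟨M, fun j => le_of_tendsto' (hM _) fun k => hle1 k j, ?_,
    One.of_tendsto (l := (hyperfilter ℕ : Filter ℕ)) (N := fun k x => Mk k x) hp hmark hM,
    ?_⟩
  · intro x r
    obtain ⟨k, hx⟩ := exists_supp_lt x
    rw [hMeq k x hx]
    refine ge_of_tendsto (hMk k x) ?_
    filter_upwards [itU_mono k] with ψ hψ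
    rw [mapSn_apply]
    rw [tailSum_eq, tl_eq_sum]
    by_cases hr : r < k
    · have h6 := h2 (x.mapDomain ψ) (ψ r)
      rw [tailSum_eq, tl_mapDomain] at h6
      have e : (∑ j ∈ x.support, if ψ r ≤ ψ j then x j else 0) =
          ∑ j ∈ x.support, if r ≤ j then x j else 0 := by
        refine Finset.sum_congr rfl fun j hj => ?_
        have hjk := hx j hj
        have : ψ r ≤ ψ j ↔ r ≤ j := by
          constructor
          · intro h
            by_contra hc
            have := strictMonoOn_lt' hψ j r (by omega) hr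
            omega
          · intro h
            exact strictMonoOn_lt hψ r j h hjk
        simp only [this]
      rw [e] at h6
      exact h6
    · have e : (∑ j ∈ x.support, if r ≤ j then x j else 0) = 0 := by
        refine Finset.sum_eq_zero fun j hj => ?_
        have := hx j hj
        rw [if_neg (by omega)]
      rw [e, abs_zero, mul_zero]
      exact apply_nonneg _ _
  · intro ψ hψ x
    obtain ⟨k, hx⟩ := exists_supp_lt x
    have hx' : ∀ j ∈ (x.mapDomain ψ).support, j < ψ k := by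
      intro j hj
      have := Finsupp.mapDomain_support hj
      obtain ⟨i, hi, rfl⟩ := Finset.mem_image.1 this
      exact hψ (hx i hi)
    rw [hMeq k x hx, hMeq (ψ k) _ hx']
    exact hsp k (ψ k) ψ (fun i hi => hψ hi) (fun i _ => hψ (Nat.lt_succ_self i)) x hx

theorem exists_monotone_sn_one {p c θ : ℝ} {t : ℕ} (hp : 0 ≤ p) (N : Seminorm ℝ (ℕ →₀ ℝ))
    (h1 : ∀ j, N (Finsupp.single j 1) ≤ 1) (h2 : ∀ x r, θ * |tailSum x r| ≤ N x)
    (h3 : One (fun x => N x) p t c)
    (hsp : ∀ ψ : ℕ → ℕ, StrictMono ψ → ∀ x : ℕ →₀ ℝ, N (x.mapDomain ψ) = N x) :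
    ∃ M : Seminorm ℝ (ℕ →₀ ℝ), (∀ j, M (Finsupp.single j 1) ≤ 1) ∧
      (∀ x r, θ * |tailSum x r| ≤ M x) ∧ One (fun x => M x) p t c ∧
      ∀ α : ℕ → ℕ, Monotone α → ∀ x : ℕ →₀ ℝ, M (x.mapDomain α) ≤ M x := by
  have hle : ∀ Q j, blkSn N Q (Finsupp.single j 1) ≤ 1 := by
    intro Q j
    rw [blkSn_apply, blk_single, map_smul_eq_mul, Real.norm_eq_abs, abs_of_nonneg (by (clear * -; positivity))]
    rcases Nat.eq_zero_or_pos Q with hQ | hQ
    · subst hQ; simp
    · have hQ' : (0 : ℝ) < Q := by exact_mod_cast hQ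
      have : N (∑ l ∈ range Q, Finsupp.single (j * Q + l) (1 : ℝ)) ≤ Q := by
        refine (sn_sum_le N _ _).trans ((Finset.sum_le_sum fun l _ => h1 (j * Q + l)).trans ?_)
        simp
      calc 1 / (Q : ℝ) * N (∑ l ∈ range Q, Finsupp.single (j * Q + l) (1 : ℝ)) ≤
            1 / (Q : ℝ) * Q := mul_le_mul_of_nonneg_left this (by positivity)
        _ = 1 := by field_simp
  obtain ⟨M, hM⟩ := exists_ulim (hyperfilter ℕ) (blkSn N) hle
  refine ⟨M, fun j => le_of_tendsto' (hM _) fun Q => hle Q j, ?_, ?_, ?_⟩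
  · intro x r
    refine ge_of_tendsto (hM x) ?_
    filter_upwards [hyper_gt 0] with Q hQ
    rw [blkSn_apply]
    have := h2 (blk Q x) (r * Q)
    rwa [tailSum_eq, tl_blk hQ, ← tailSum_eq] at this
  · refine One.of_tendsto (l := (hyperfilter ℕ : Filter ℕ))
      (N := fun Q x => blkSn N Q x) hp (fun Q => ?_) hM
    exact h3.comp (blk Q).toAddMonoidHom
  · intro α hα x
    have key : ∀ m, 0 < m → M (x.mapDomain α) ≤ N (blk m x) := by
      intro m hm
      set y := blk m x with hy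
      set C := ∑ i ∈ y.support, |y i| * (2 * (i : ℝ)) with hC
      have hβ : Monotone (fun j => α (j / m)) := fun i j hij => hα (Nat.div_le_div_right hij)
      have hlim : Tendsto (fun Q : ℕ => N y + (1 / (Q : ℝ)) * C) (hyperfilter ℕ : Filter ℕ)
          (𝓝 (N y + 0 * C)) := by
        refine Tendsto.mono_left ?_ Nat.hyperfilter_le_atTop
        exact tendsto_const_nhds.add (tendsto_one_div_atTop_nhds_zero_nat.mul_const C)
      rw [zero_mul, add_zero] at hlim
      refine le_of_tendsto_of_tendsto (hM _) hlim ?_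
      filter_upwards [hyper_gt 0] with Q hQ
      rw [blkSn_apply, ← mapDomain_blk hm α x]
      exact sn_blk_mapDomain_le N h1 hsp hβ y hQ
    refine ge_of_tendsto (hM x) ?_
    filter_upwards [hyper_gt 0] with m hm
    exact key m hm

/-- The module statement: from a seminorm with lower bound by tail sums to one which is
monotone under all monotone maps of the index set. -/
theorem exists_monotone_seminorm_one {p c θ : ℝ} {t : ℕ} (hp : 0 ≤ p) (N : Seminorm ℝ (ℕ →₀ ℝ))
    (h1 : ∀ j, N (Finsupp.single j 1) ≤ 1) (h2 : ∀ x r, θ * |tailSum x r| ≤ N x)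
    (h3 : One (fun x => N x) p t c) :
    ∃ M : Seminorm ℝ (ℕ →₀ ℝ), (∀ j, M (Finsupp.single j 1) ≤ 1) ∧
      (∀ x r, θ * |tailSum x r| ≤ M x) ∧ One (fun x => M x) p t c ∧
      ∀ α : ℕ → ℕ, Monotone α → ∀ x : ℕ →₀ ℝ, M (x.mapDomain α) ≤ M x := by
  obtain ⟨N1, a1, a2, a3, a4⟩   := exists_spreading_one hp N h1 h2 h3
  exact exists_monotone_sn_one hp N1 a1 a2 a3 a4

/-- Local version: a family of seminorms whose lower bounds hold on longer and longer initial
segments. -/
theorem exists_monotone_seminorm_of_local_one {p c θ : ℝ} {t : ℕ} (hp : 0 ≤ p)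
    (h : ∀ k : ℕ, ∃ M : Seminorm ℝ (ℕ →₀ ℝ), (∀ j, M (Finsupp.single j 1) ≤ 1) ∧
      (∀ x : ℕ →₀ ℝ, (∀ j ∈ x.support, j < k) → ∀ r, θ * |tailSum x r| ≤ M x) ∧
      One (fun x => M x) p t c) :
    ∃ M : Seminorm ℝ (ℕ →₀ ℝ), (∀ j, M (Finsupp.single j 1) ≤ 1) ∧
      (∀ x r, θ * |tailSum x r| ≤ M x) ∧ One (fun x => M x) p t c ∧
      ∀ α : ℕ → ℕ, Monotone α → ∀ x : ℕ →₀ ℝ, M (x.mapDomain α) ≤ M x := by
  choose Mk b1 b2 b3 using h
  obtain ⟨N, hN⟩ := exists_ulim (hyperfilter ℕ) Mk b1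
  refine exists_monotone_seminorm_one hp N (fun j => le_of_tendsto' (hN _) fun k => b1 k j) ?_
    (One.of_tendsto (l := (hyperfilter ℕ : Filter ℕ)) (N := fun k x => Mk k x) hp b3 hN)
  intro x r
  obtain ⟨k, hx⟩ := exists_supp_lt x
  refine ge_of_tendsto (hN x) ?_
  filter_upwards [hyper_gt k] with L hL
  exact b2 L x (fun j hj => lt_trans (hx j hj) hL) r

/-- Version starting from a James family. -/
theorem exists_mono_of_family_one {p c θ : ℝ} {t : ℕ} (hp : 1 ≤ p) (h : JamesFamilyOne p t c θ) :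
    ∃ ν : Seminorm ℝ (ℕ →₀ ℝ),
      (∀ α : ℕ → ℕ, Monotone α → ∀ x : ℕ →₀ ℝ, ν (x.mapDomain α) ≤ ν x) ∧
      θ ≤ ν (Finsupp.single 0 1 - Finsupp.single 1 1) ∧
      One (fun x => ν x) p t c := by
  obtain ⟨N, -, a2, a3, a4⟩ := exists_monotone_seminorm_of_local_one (by linarith) h
  refine ⟨N, a4, ?_, a3⟩
  have h := a2 (Finsupp.single 0 1 - Finsupp.single 1 1) 1
  rw [tailSum_eq, map_sub, tl_single, tl_single] at h
  simpa only [ge_iff_le, nonpos_iff_eq_zero, one_ne_zero, ↓reduceIte, Std.le_refl, zero_sub, abs_neg, abs_one,     mul_one] using h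


/-- Linear form: if the norm of `X` satisfies the one-time inequality with
`2 ^ (p + 1) * c < t ^ p` then `X` is superreflexive. -/
theorem superreflexive_of_one {X : Type*} [NormedAddCommGroup X] [NormedSpace ℝ X]
    {p c : ℝ} {t : ℕ} (hp : 1 ≤ p) (ht : 1 ≤ t) (hc0 : 0 ≤ c)
    (hX : One (fun x : X => ‖x‖) p t c) (hct : 2 * (c * 2 ^ p) < (t : ℝ) ^ p) :
    Superreflexive X ∧ ∃ N : Seminorm ℝ X, EquivalentNorm N ∧ UniformlySmoothNorm N := by
  have hcore : ∀ θ : ℝ, 0 < θ → ¬ JamesFamilyOne p t c θ := by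
    intro θ hθ hJ
    obtain ⟨ν, h1, h2, h3⟩ := exists_mono_of_family_one hp hJ
    have := core_ineq_one lemmaAStatement boxStatement hp hc0 ν h1 (lt_of_lt_of_le hθ h2) t ht h3
    linarith
  exact ⟨superreflexive_of_JBound (normingPairing_primal X) (jbound_primal_one hp hX hcore),
    smooth_of_dual (superreflexive_of_JBound (normingPairing_dual X)
      (jbound_dual_one hp hX hcore))⟩

end P125
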